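import Vale.Agent.P272.F.K.CovA

/-! P272 K/Cov (auxiliary names start with `covx_`; overview in `notes/P272K.md`).

The cover adapted to finitely many points. For each `x` choose `0 < r x ≤ 1` such that the compact set
`K x = symm '' closedBall (ct A x) (r x)` (`ball_ct`) contains no `pt l ≠ x`, and `r (pt l) ≤ R l`.
The half balls cover `X`; take a finite subcover, add the points `pt l`, enumerate the finite set
of centres by `z : Fin N → X` injective (`Finset.equivFin`), `ι l` is the index of `pt l`.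
For `j ≠ ι l` the closed set `K (z j)` misses `pt l`, hence misses `symm '' ball (ct) δ` for small
`δ`; take a common `δ` (finitely many conditions, `Filter.eventually_all` at `𝓝[>] 0`).
`cov_pts` is the combinatorial part, `exists_cov` packs it with `cov_pu` and `an_tr`. -/

open Metric Set Filter Topology MeasureTheory
open scoped ContDiff ENNReal ComplexConjugate

noncomputable section

namespace Vale.Agent.P272.K

variable {n : ℕ} {X : Type} [TopologicalSpace X]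

variable [T2Space X] [CompactSpace X]

theorem covx_ev {a : ℝ} (ha : 0 < a) : ∀ᶠ r in 𝓝[>] (0 : ℝ), r < a :=
  mem_nhdsWithin_of_mem_nhds (Iio_mem_nhds ha)

omit [T2Space X] [CompactSpace X] in
theorem covx_rad (A : Atl n X) {q : ℕ} (pt : Fin q → X) {R : Fin q → ℝ} (hR : ∀ l, 0 < R l)
    (x : X) : ∃ r : ℝ, 0 < r ∧ r ≤ 1 ∧ (∀ l, r ≤ R l) ∧ ∀ l, pt l ≠ x →
      pt l ∈ (A.e (A.ch x)).source → r < ‖A.e (A.ch x) (pt l) - ct A x‖ := by
  have h1 : ∀ᶠ r in 𝓝[>] (0 : ℝ), ∀ l, r < R l := eventually_all.2 fun l => covx_ev (hR l)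
  have h2 : ∀ᶠ r in 𝓝[>] (0 : ℝ), ∀ l, pt l ≠ x →
      pt l ∈ (A.e (A.ch x)).source → r < ‖A.e (A.ch x) (pt l) - ct A x‖ := by
    refine eventually_all.2 fun l => ?_
    by_cases h : pt l ≠ x ∧ pt l ∈ (A.e (A.ch x)).source
    · have h3 : 0 < ‖A.e (A.ch x) (pt l) - ct A x‖ := norm_pos_iff.2 (sub_ne_zero.2 fun e =>
        h.1 ((A.e (A.ch x)).injOn h.2 (ch_mem A x).1 e))
      exact (covx_ev h3).mono fun r hr _ _ => hr
    · exact Eventually.of_forall fun r a b => absurd ⟨a, b⟩ h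
  obtain ⟨r, ⟨⟨a, b⟩, c⟩, d⟩ :=
    (((h1.and h2).and (covx_ev one_pos)).and self_mem_nhdsWithin).exists
  exact ⟨r, d, c.le, fun l => (a l).le, b⟩

omit [CompactSpace X] in
theorem covx_sep (A : Atl n X) {p z : X} {r : ℝ} (hr : r ≤ 1)
    (h : p ∈ (A.e (A.ch z)).source → r < ‖A.e (A.ch z) p - ct A z‖) :
    ∀ᶠ δ in 𝓝[>] (0 : ℝ), ∀ x, x ∈ (A.e (A.ch z)).source →
      A.e (A.ch z) x ∈ ball (ct A z) r → x ∈ (A.e (A.ch p)).source →
      δ ≤ ‖A.e (A.ch p) x - ct A p‖ := by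
  have hs := ball_ct A z hr
  have hK : IsClosed ((A.e (A.ch z)).symm '' closedBall (ct A z) r) :=
    ((isCompact_closedBall _ _).image_of_continuousOn
      ((A.e (A.ch z)).continuousOn_symm.mono hs)).isClosed
  have hp : p ∉ (A.e (A.ch z)).symm '' closedBall (ct A z) r := by
    rintro ⟨y, hy, rfl⟩
    have h1 := h ((A.e (A.ch z)).map_target (hs hy))
    rw [(A.e (A.ch z)).right_inv (hs hy)] at h1
    exact absurd (mem_closedBall_iff_norm.1 hy) (not_le.2 h1)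
  have hm := (ch_mem A p).1
  have hc : ContinuousAt (A.e (A.ch p)).symm (ct A p) :=
    (A.e (A.ch p)).continuousAt_symm ((A.e (A.ch p)).map_source hm)
  have e1 : (A.e (A.ch p)).symm (ct A p) = p := (A.e (A.ch p)).left_inv hm
  obtain ⟨ε, hε, hb⟩ := Metric.mem_nhds_iff.1
    (hc.preimage_mem_nhds (hK.isOpen_compl.mem_nhds (by rw [e1]; exact hp)))
  refine (covx_ev hε).mono fun δ hδ x h1 h2 h3 => not_lt.1 fun h4 => ?_
  have h5 := hb (mem_ball_iff_norm.2 (h4.trans hδ))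
  rw [mem_preimage, (A.e (A.ch p)).left_inv h3] at h5
  exact h5 ⟨_, ball_subset_closedBall h2, (A.e (A.ch z)).left_inv h1⟩

theorem cov_pts (A : Atl n X) {q : ℕ} {pt : Fin q → X} (hp : Function.Injective pt)
    {R : Fin q → ℝ} (hR : ∀ l, 0 < R l) :
    ∃ (N : ℕ) (z : Fin N → X) (r : Fin N → ℝ) (ι : Fin q → Fin N) (δ : ℝ), 0 < δ ∧
      (∀ i, 0 < r i ∧ r i ≤ 1) ∧
      (∀ x, ∃ i, x ∈ (A.e (A.ch (z i))).source ∧
        A.e (A.ch (z i)) x ∈ ball (ct A (z i)) (r i / 2)) ∧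
      (∀ l, z (ι l) = pt l ∧ δ ≤ r (ι l) ∧ r (ι l) ≤ R l) ∧
      ∀ l j x, j ≠ ι l → x ∈ (A.e (A.ch (z j))).source →
        A.e (A.ch (z j)) x ∈ ball (ct A (z j)) (r j) → x ∈ (A.e (A.ch (pt l))).source →
        δ ≤ ‖A.e (A.ch (pt l)) x - ct A (pt l)‖ := by
  classical
  choose r r0 r1 rR rp using covx_rad A pt hR
  obtain ⟨t, ht⟩ := isCompact_univ.elim_finite_subcover
    (fun x : X => (A.e (A.ch x)).source ∩ A.e (A.ch x) ⁻¹' ball (ct A x) (r x / 2))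
    (fun x => (A.e (A.ch x)).isOpen_inter_preimage isOpen_ball)
    fun x _ => mem_iUnion.2 ⟨x, (ch_mem A x).1, mem_ball_self (half_pos (r0 x))⟩
  obtain ⟨T, hT⟩ : ∃ T : Finset X, T = t ∪ Finset.univ.image pt := ⟨_, rfl⟩
  have hpt : ∀ l, pt l ∈ T := fun l => by
    rw [hT]
    exact Finset.mem_union_right _ (Finset.mem_image_of_mem _ (Finset.mem_univ l))
  obtain ⟨z, hz⟩ : ∃ z : Fin T.card → X, ∀ i, z i = (T.equivFin.symm i : X) := ⟨_, fun _ => rfl⟩
  have hz1 : ∀ x (hx : x ∈ T), z (T.equivFin ⟨x, hx⟩) = x := fun x hx => by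
    rw [hz, Equiv.symm_apply_apply]
  have hz2 : ∀ l j, j ≠ T.equivFin ⟨pt l, hpt l⟩ → pt l ≠ z j := fun l j h e => h (by
    rw [← T.equivFin.apply_symm_apply j]
    exact congrArg _ (Subtype.ext ((hz j).symm.trans e.symm)))
  have h1 : ∀ᶠ δ in 𝓝[>] (0 : ℝ), ∀ l, δ < r (pt l) :=
    eventually_all.2 fun l => covx_ev (r0 _)
  have h2 : ∀ᶠ δ in 𝓝[>] (0 : ℝ), ∀ l j, j ≠ T.equivFin ⟨pt l, hpt l⟩ → ∀ x,
      x ∈ (A.e (A.ch (z j))).source → A.e (A.ch (z j)) x ∈ ball (ct A (z j)) (r (z j)) →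
      x ∈ (A.e (A.ch (pt l))).source → δ ≤ ‖A.e (A.ch (pt l)) x - ct A (pt l)‖ := by
    refine eventually_all.2 fun l => eventually_all.2 fun j => ?_
    by_cases h : j ≠ T.equivFin ⟨pt l, hpt l⟩
    · exact (covx_sep A (r1 (z j)) (rp (z j) l (hz2 l j h))).mono fun δ a _ => a
    · exact Eventually.of_forall fun δ a => absurd a h
  obtain ⟨δ, ⟨a, b⟩, d⟩ := ((h1.and h2).and self_mem_nhdsWithin).exists
  refine ⟨T.card, z, fun i => r (z i), fun l => T.equivFin ⟨pt l, hpt l⟩, δ, d,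
    fun i => ⟨r0 _, r1 _⟩, fun x => ?_, fun l => ⟨hz1 _ _, ?_, rR _ l⟩,
    fun l j x h => b l j h x⟩
  · obtain ⟨y, hy, hx⟩ := mem_iUnion₂.1 (ht (mem_univ x))
    have hy' : y ∈ T := by
      rw [hT]
      exact Finset.mem_union_left _ hy
    refine ⟨T.equivFin ⟨y, hy'⟩, ?_⟩
    simp only [hz1]
    exact hx
  · simp only [hz1]
    exact (a l).le

theorem exists_cov (A : Atl n X) {q : ℕ} {pt : Fin q → X} (hp : Function.Injective pt)
    {R : Fin q → ℝ} (hR : ∀ l, 0 < R l) :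
    ∃ (C : Cv n X) (k : Fin C.N → Fin A.N) (ι : Fin q → Fin C.N) (δ : ℝ), C.On A k ∧ 0 < δ ∧
      δ ≤ 1 ∧ Function.Injective ι ∧
      (∀ l, k (ι l) = A.ch (pt l) ∧ C.c (ι l) = ct A (pt l) ∧ δ ≤ C.r (ι l) ∧ C.r (ι l) ≤ R l) ∧
      ∀ l j, j ≠ ι l → ∀ y ∈ C.ov j (ι l), δ ≤ ‖y - ct A (pt l)‖ := by
  obtain ⟨N, z, r, ι, δ, hδ, hr, hcov, hι, hsep⟩ := cov_pts A hp hR
  have sub : ∀ i, closedBall (ct A (z i)) (r i) ⊆ (A.e (A.ch (z i))).target :=
    fun i => ball_ct A (z i) (hr i).2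
  obtain ⟨χ, B, nn, sum, supp, sm, bd⟩ := cov_pu (A := A) (fun i => A.ch (z i))
    (fun i => ct A (z i)) r (fun i => (hr i).1) sub hcov
  refine ⟨⟨N, fun i => A.e (A.ch (z i)), fun i => ct A (z i), r, sub,
    fun i j x hi hj => an_tr hi hj, χ, nn, sum, supp, sm, B, bd⟩, fun i => A.ch (z i), ι,
    min δ 1, fun _ => rfl, lt_min hδ one_pos, min_le_right _ _, fun l l' e => hp ?_,
    fun l => ⟨congrArg A.ch (hι l).1, congrArg (ct A) (hι l).1,
      (min_le_left _ _).trans (hι l).2.1, (hι l).2.2⟩, fun l j hj y hy => ?_⟩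
  · rw [← (hι l).1, ← (hι l').1, e]
  · have h1 : y ∈ (A.e (A.ch (z (ι l)))).target := sub _ (ball_subset_closedBall hy.1)
    have h2 : (A.e (A.ch (z (ι l)))).symm y ∈ (A.e (A.ch (z j))).source ∧
        A.e (A.ch (z j)) ((A.e (A.ch (z (ι l)))).symm y) ∈ ball (ct A (z j)) (r j) := hy.2
    rw [(hι l).1] at h1 h2
    have h3 := hsep l j _ hj h2.1 h2.2 ((A.e (A.ch (pt l))).map_target h1)
    rw [(A.e (A.ch (pt l))).right_inv h1] at h3
    exact (min_le_left _ _).trans h3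

end Vale.Agent.P272.K
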