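import Vale.Agent.P272.F.K.Defs

/-! P272 K/Tay (auxiliary names start with `tayx_`; overview in `notes/P272K.md`).

Second order Taylor expansion. With `L = fderiv ℝ ℓ y₀`, `B = fderiv ℝ (fderiv ℝ ℓ) y₀` (symmetric,
`ContDiffAt.isSymmSndFDerivAt`), `h = y - y₀`: put `P y = ℓ y₀ / 2 + lam h + beta h h / 8` with
`lam h = (L h - I L (I h)) / 2` (complex linear) and
`beta a b = B a b - B (I a) (I b) - I B a (I b) - I B (I a) b` (complex bilinear; for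
`Differentiable ℂ` bundle them as `ℂ`-linear maps on a finite dimensional space, or expand in the
coordinates `h = ∑ h i • eb i`). Then `ℓ y - 2 Re P y = levi ℓ y₀ h + r h`,
`r h = ℓ (y₀ + h) - ℓ y₀ - L h - B h h / 2`, and `|r h| ≤ η ‖h‖ ^ 2` for small `h` (`tay_rem`: the
derivative of `r` is `Dℓ (y₀ + h) - Dℓ y₀ - B h = o (h)`, mean value inequality on a ball).
`levi ℓ y₀ h ≥ c₀ ‖h‖ ^ 2` by compactness of the unit sphere (`tay_pos`), `≤ ‖B‖ ‖h‖ ^ 2`. -/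

open Metric Set Filter Topology MeasureTheory
open scoped ContDiff ENNReal ComplexConjugate

noncomputable section

namespace Vale.Agent.P272.K

variable {n : ℕ} {X : Type} [TopologicalSpace X]

theorem tay_rem {ℓ : E n → ℝ} {y₀ : E n} (hℓ : ContDiffAt ℝ ∞ ℓ y₀) {η : ℝ} (hη : 0 < η) :
    ∃ R : ℝ, 0 < R ∧ ∀ h : E n, ‖h‖ < R → |ℓ (y₀ + h) - ℓ y₀ - fderiv ℝ ℓ y₀ h -
      fderiv ℝ (fderiv ℝ ℓ) y₀ h h / 2| ≤ η * ‖h‖ ^ 2 := by
  have h2 : ContDiffAt ℝ 2 ℓ y₀ := hℓ.of_le (WithTop.coe_le_coe.2 (le_top : (2 : ℕ∞) ≤ ⊤))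
  have hs := h2.isSymmSndFDerivAt (by simp)
  have hd : HasFDerivAt (fderiv ℝ ℓ) (fderiv ℝ (fderiv ℝ ℓ) y₀) y₀ :=
    ((h2.fderiv_right (m := 1) (by norm_num)).differentiableAt (by norm_num)).hasFDerivAt
  obtain ⟨B, hB⟩ : ∃ B, B = fderiv ℝ (fderiv ℝ ℓ) y₀ := ⟨_, rfl⟩
  have hsym : ∀ a b, B a b = B b a := fun a b => by rw [hB]; exact hs a b
  rw [← hB] at hd ⊢
  have e1 := (hasFDerivAt_iff_isLittleO_nhds_zero.1 hd).def hη
  have e2 : ∀ᶠ h in 𝓝 (0 : E n), DifferentiableAt ℝ ℓ (y₀ + h) := by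
    have h3 : ∀ᶠ y in 𝓝 y₀, DifferentiableAt ℝ ℓ y :=
      (h2.eventually (by simp)).mono fun y hy => hy.differentiableAt (by norm_num)
    have h4 : Tendsto (fun h : E n => y₀ + h) (𝓝 0) (𝓝 y₀) :=
      (continuous_const.add continuous_id).tendsto' 0 y₀ (by simp)
    exact h4.eventually h3
  obtain ⟨R, hR, hb⟩ := Metric.eventually_nhds_iff_ball.1 (e1.and e2)
  refine ⟨R, hR, fun h hh => ?_⟩
  have key := Convex.norm_image_sub_le_of_norm_hasFDerivWithin_le (𝕜 := ℝ)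
    (f := fun k : E n => ℓ (y₀ + k) - fderiv ℝ ℓ y₀ k - (1 / 2 : ℝ) * B k k)
    (f' := fun k => fderiv ℝ ℓ (y₀ + k) - fderiv ℝ ℓ y₀ - B k) (s := closedBall 0 ‖h‖)
    (C := η * ‖h‖) (x := 0) (y := h) (fun k hk => ?_) (fun k hk => ?_) (convex_closedBall _ _)
    (mem_closedBall_self (norm_nonneg _)) (by simp)
  · simp only [add_zero, map_zero, sub_zero, mul_zero, Real.norm_eq_abs] at key
    have e : ℓ (y₀ + h) - ℓ y₀ - fderiv ℝ ℓ y₀ h - B h h / 2 =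
        ℓ (y₀ + h) - fderiv ℝ ℓ y₀ h - 1 / 2 * B h h - ℓ y₀ := by ring
    rw [e]
    refine key.trans (le_of_eq ?_)
    ring
  · have hk' : k ∈ ball (0 : E n) R := closedBall_subset_ball hh hk
    have a1 : HasFDerivAt (fun k : E n => ℓ (y₀ + k)) (fderiv ℝ ℓ (y₀ + k)) k :=
      (hasFDerivAt_comp_add_left y₀).2 (hb k hk').2.hasFDerivAt
    have a2 := (B.hasFDerivAt (x := k)).clm_apply (hasFDerivAt_id k)
    have a3 := (a1.sub (fderiv ℝ ℓ y₀).hasFDerivAt).sub (a2.const_mul (1 / 2 : ℝ))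
    refine (a3.congr_fderiv ?_).hasFDerivWithinAt
    ext v
    simp [hsym v k]
    ring
  · have hk' : k ∈ ball (0 : E n) R := closedBall_subset_ball hh hk
    exact (hb k hk').1.trans (mul_le_mul_of_nonneg_left (mem_closedBall_zero_iff.1 hk) hη.le)

theorem tay_pos {ℓ : E n → ℝ} {y₀ : E n} (hl : ∀ a, a ≠ 0 → 0 < levi ℓ y₀ a) :
    ∃ c : ℝ, 0 < c ∧ ∀ a, c * ‖a‖ ^ 2 ≤ levi ℓ y₀ a := by
  have hc : Continuous (levi ℓ y₀) := by
    unfold levi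
    fun_prop
  have hm : ∀ (s : ℝ) (a : E n), levi ℓ y₀ (s • a) = s ^ 2 * levi ℓ y₀ a := by
    intro s a
    simp only [levi, smul_comm Complex.I s a, map_smul, smul_apply, smul_eq_mul]
    ring
  obtain ⟨c, c0, c1⟩ := (isCompact_sphere (0 : E n) 1).exists_forall_le' hc.continuousOn (a := 0)
    fun a ha => hl a (ne_zero_of_mem_sphere one_ne_zero ⟨a, ha⟩)
  refine ⟨c, c0, fun a => ?_⟩
  by_cases ha : a = 0
  · simp [ha, levi]
  · have h1 : ‖a‖ ≠ 0 := norm_ne_zero_iff.2 ha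
    have h2 := c1 (‖a‖⁻¹ • a) (by simp [norm_smul, h1])
    have h3 := hm ‖a‖ (‖a‖⁻¹ • a)
    rw [smul_smul, mul_inv_cancel₀ h1, one_smul] at h3
    rw [h3, mul_comm]
    exact mul_le_mul_of_nonneg_left h2 (sq_nonneg _)

theorem tayx_smul (c : ℂ) (a : E n) : c • a = c.re • a + c.im • (Complex.I • a) := by
  conv_lhs => rw [← Complex.re_add_im c]
  rw [add_smul, mul_smul, Complex.coe_smul, Complex.coe_smul]

theorem tayx_II (a : E n) : Complex.I • Complex.I • a = -a := by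
  rw [smul_smul, Complex.I_mul_I, neg_smul, one_smul]

theorem tayx_Ismul (c : ℂ) (a : E n) :
    Complex.I • c • a = c.re • (Complex.I • a) - c.im • a := by
  rw [smul_comm, tayx_smul c, tayx_II, smul_neg, sub_eq_add_neg]

/-- The complex linear part of a real functional. -/
def tayx_l (f : E n →L[ℝ] ℝ) : E n →ₗ[ℂ] ℂ where
  toFun a := f a - Complex.I * f (Complex.I • a)
  map_add' a b := by
    simp only [smul_add, map_add, Complex.ofReal_add]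
    ring
  map_smul' c a := by
    rw [tayx_Ismul, tayx_smul c a]
    simp only [map_add, map_sub, map_smul, smul_eq_mul, RingHom.id_apply]
    apply Complex.ext <;> simp <;> ring

/-- The complex bilinear part of a real form. -/
def tayx_b (B : E n →L[ℝ] E n →L[ℝ] ℝ) : E n →ₗ[ℂ] E n →L[ℂ] ℂ where
  toFun a := LinearMap.toContinuousLinearMap (tayx_l (B a) - Complex.I • tayx_l (B (Complex.I • a)))
  map_add' a b := by
    ext v
    simp [tayx_l]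
    ring
  map_smul' c a := by
    ext v
    rw [tayx_Ismul, tayx_smul c a]
    simp [tayx_l]
    apply Complex.ext <;> simp <;> ring

theorem tay {ℓ : E n → ℝ} {y₀ : E n} (hℓ : ContDiffAt ℝ ∞ ℓ y₀)
    (hl : ∀ a, a ≠ 0 → 0 < levi ℓ y₀ a) :
    ∃ (P : E n → ℂ) (R c C : ℝ), Differentiable ℂ P ∧ 0 < R ∧ 0 < c ∧ 0 < C ∧
      ∀ y ∈ ball y₀ R, c * ‖y - y₀‖ ^ 2 ≤ ℓ y - 2 * (P y).re ∧
        ℓ y - 2 * (P y).re ≤ C * ‖y - y₀‖ ^ 2 := by
  obtain ⟨c, c0, c1⟩ := tay_pos hl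
  obtain ⟨R, hR, hr⟩ := tay_rem hℓ (half_pos c0)
  have hup : ∀ a, levi ℓ y₀ a ≤ ‖fderiv ℝ (fderiv ℝ ℓ) y₀‖ * ‖a‖ ^ 2 := by
    intro a
    have h1 := (fderiv ℝ (fderiv ℝ ℓ) y₀).le_opNorm₂ a a
    have h2 := (fderiv ℝ (fderiv ℝ ℓ) y₀).le_opNorm₂ (Complex.I • a) (Complex.I • a)
    rw [norm_smul, Complex.norm_I, one_mul] at h2
    have h3 := (le_abs_self _).trans h1
    have h4 := (le_abs_self _).trans h2
    have h5 : 0 ≤ ‖fderiv ℝ (fderiv ℝ ℓ) y₀‖ * ‖a‖ ^ 2 := by positivity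
    unfold levi
    nlinarith
  let l := LinearMap.toContinuousLinearMap (tayx_l (fderiv ℝ ℓ y₀))
  let b := LinearMap.toContinuousLinearMap (tayx_b (fderiv ℝ (fderiv ℝ ℓ) y₀))
  refine ⟨fun y => ℓ y₀ / 2 + l (y - y₀) / 2 + b (y - y₀) (y - y₀) / 8, R, c / 2,
    ‖fderiv ℝ (fderiv ℝ ℓ) y₀‖ + c / 2, by fun_prop, hR, half_pos c0, by positivity,
    fun y hy => ?_⟩
  obtain ⟨h, rfl⟩ : ∃ h, y = y₀ + h := ⟨y - y₀, by simp⟩
  have h1 := abs_le.1 (hr h (by simpa using hy))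
  have h2 : (ℓ y₀ / 2 + l h / 2 + b h h / 8 : ℂ).re = ℓ y₀ / 2 + fderiv ℝ ℓ y₀ h / 2 +
      (fderiv ℝ (fderiv ℝ ℓ) y₀ h h -
        fderiv ℝ (fderiv ℝ ℓ) y₀ (Complex.I • h) (Complex.I • h)) / 8 := by
    simp [l, b, tayx_l, tayx_b]
  have h3 := c1 h
  have h4 := hup h
  simp only [add_sub_cancel_left, h2]
  unfold levi at h3 h4
  constructor <;> nlinarith [h1.1, h1.2]

end Vale.Agent.P272.K
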