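import Vale.Agent.P272.F.K.Peak1
import Vale.Agent.P272.F.K.Tay
import Vale.Agent.P272.F.K.Cov

/-! P272 K/Peak (auxiliary names start with `peakx_`; overview in `notes/P272K.md`).

Peak sections at finitely many points. `tay` at each `pt l` for `v.l (A.ch (pt l))` (smooth on the open
target, which contains `ct`), giving `P l, R l, c l, C l`; common `c > 0`, `C > 0`; `exists_cov`;
`ρ > 0` with `2 ρ ≤ δ` and `4 C ρ ^ 2 < c δ ^ 2`; `peak1` with `Q = Function.extend ι P 0`,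
`f = Function.extend ι f 0`, `α = c δ ^ 2`, `β = 4 C ρ ^ 2`,
`T j = {y | ∃ l, ι l = j ∧ y ∈ ball (ct A (pt l)) ρ}`. -/

open Metric Set Filter Topology MeasureTheory
open scoped ContDiff ENNReal ComplexConjugate

noncomputable section

namespace Vale.Agent.P272.K

variable {n : ℕ} {X : Type} [TopologicalSpace X]

theorem peakx_diff {q N : ℕ} {ι : Fin q → Fin N} (hι : Function.Injective ι)
    {P : Fin q → E n → ℂ} (hP : ∀ l, Differentiable ℂ (P l)) (i : Fin N) :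
    Differentiable ℂ (Function.extend ι P 0 i) := by
  by_cases hi : ∃ l, ι l = i
  · obtain ⟨l, rfl⟩ := hi
    rw [hι.extend_apply]
    exact hP l
  · rw [Function.extend_apply' _ _ _ hi]
    exact differentiable_const 0

theorem peak [T2Space X] [CompactSpace X] {A : Atl n X} (v : A.LV) (hv : Ps v) {q : ℕ}
    {pt : Fin q → X} (hp : Function.Injective pt) :
    ∃ (ρ : ℝ) (P : Fin q → E n → ℂ), 0 < ρ ∧ ρ ≤ 1 ∧ (∀ l, Differentiable ℂ (P l)) ∧
      ∀ f : Fin q → E n → ℂ, (∀ l, Differentiable ℂ (f l)) → ∀ ε : ℝ, 0 < ε →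
        ∀ᶠ m : ℕ in atTop, ∃ σ : A.Sec m, ∀ l, ∀ y ∈ ball (ct A (pt l)) ρ,
          ‖σ.s (A.ch (pt l)) y * Complex.exp (-(m * P l y)) - f l y‖ ≤ ε := by
  have hct : ∀ l, ct A (pt l) ∈ (A.e (A.ch (pt l))).target := fun l =>
    (A.e _).map_source (A.cov (pt l)).choose_spec.1
  choose P R c D hP hR hc hD hT using fun l =>
    tay ((v.sm _).contDiffAt ((A.e _).open_target.mem_nhds (hct l))) (hv _ _ (hct l))
  obtain ⟨C, k, ι, δ, hk, hδ, hδ1, hι, hl, hov⟩ := exists_cov A hp hR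
  obtain ⟨c₀, hc₀, hcc⟩ : ∃ c₀ : ℝ, 0 < c₀ ∧ ∀ l, c₀ ≤ c l := by
    obtain ⟨a, h1, h2⟩ := ((eventually_all.2 fun l => Ioo_mem_nhdsGT (hc l)).and
      (self_mem_nhdsWithin (s := Ioi (0 : ℝ)))).exists
    exact ⟨a, h2, fun l => (h1 l).2.le⟩
  have hβ : 0 < c₀ * δ ^ 2 / 2 := by positivity
  obtain ⟨ρ, ⟨hρ, hρδ⟩, hρD⟩ : ∃ ρ : ℝ, ρ ∈ Ioo 0 (δ / 2) ∧
      ∀ l, D l * (2 * ρ) ^ 2 < c₀ * δ ^ 2 / 2 := by
    refine (Eventually.and (Ioo_mem_nhdsGT (half_pos hδ)) (eventually_all.2 fun l => ?_)).exists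
    have h1 : Continuous fun ρ : ℝ => D l * (2 * ρ) ^ 2 := by fun_prop
    exact ((h1.tendsto 0).eventually (gt_mem_nhds (by simpa using hβ))).filter_mono
      nhdsWithin_le_nhds
  have hbl : ∀ l, C.bl (ι l) = ball (ct A (pt l)) (C.r (ι l)) := fun l => by
    rw [Cv.bl, (hl l).2.1]
  refine ⟨ρ, P, hρ, by linarith, hP, fun f hf ε hε => ?_⟩
  have h := peak1 (T := fun j => {y | ∃ l, ι l = j ∧ y ∈ ball (ct A (pt l)) ρ}) v hv hk
    (peakx_diff hι hP) (peakx_diff hι hf) (half_lt_self (a := c₀ * δ ^ 2) (by positivity)) hρ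
    (fun i j hij y hy hfy => by
      by_cases hj : ∃ l, ι l = j
      · obtain ⟨l, rfl⟩ := hj
        rw [hι.extend_apply, (hl l).1]
        have h1 : y ∈ ball (ct A (pt l)) (R l) :=
          ball_subset_ball (hl l).2.2.2 (hbl l ▸ hy.1)
        refine le_trans ?_ (hT l y h1).1
        exact mul_le_mul (hcc l) (pow_le_pow_left₀ hδ.le (hov l i hij y hy) 2) (by positivity)
          (hc l).le
      · rw [Function.extend_apply' _ _ _ hj] at hfy
        exact absurd rfl hfy)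
    (by
      rintro _ y ⟨l, rfl, hy⟩
      have h1 := mem_ball.1 hy
      obtain ⟨h2, -, h3, h4⟩ := hl l
      refine ⟨hbl l ▸ closedBall_subset_ball' (by linarith), fun w hw => ?_⟩
      rw [hι.extend_apply, h2]
      have h5 : ‖w - ct A (pt l)‖ < 2 * ρ := by
        have := dist_triangle w y (ct A (pt l))
        rw [← dist_eq_norm]
        linarith [mem_ball.1 hw]
      refine ((hT l w (mem_ball_iff_norm.2 (by linarith))).2.trans ?_).trans (hρD l).le
      exact mul_le_mul_of_nonneg_left (pow_le_pow_left₀ (norm_nonneg _) h5.le 2) (hD l).le) hε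
  filter_upwards [h] with m hm
  obtain ⟨σ, hσ⟩ := hm
  refine ⟨σ, fun l y hy => ?_⟩
  have h1 := hσ (ι l) y ⟨l, rfl, hy⟩
  rwa [hι.extend_apply, hι.extend_apply, (hl l).1] at h1

end Vale.Agent.P272.K
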