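import Vale.Agent.P272.F.K.Defs

/-! P272 K/Pow (auxiliary names start with `powx_`; overview in `notes/P272K.md`).

Products of sections (no task here). -/

open Metric Set Filter Topology MeasureTheory
open scoped ContDiff ENNReal ComplexConjugate

noncomputable section

namespace Vale.Agent.P272.K

variable {n : ℕ} {X : Type} [TopologicalSpace X]

variable {A : Atl n X} {m : ℕ}

theorem sec_pow (σ τ : A.Sec m) {k : ℕ} (hk : 1 ≤ k) :
    ∃ w : A.Sec (m * k), ∀ j y, w.s j y = σ.s j y ^ (k - 1) * τ.s j y := by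
  obtain ⟨k, rfl⟩ := Nat.exists_eq_add_of_le' hk
  refine ⟨⟨fun j y => σ.s j y ^ k * τ.s j y, fun j => ((σ.hol j).pow k).mul (τ.hol j),
    fun j l x hj hl => ?_⟩, fun j y => rfl⟩
  rw [σ.cmp j l x hj hl, τ.cmp j l x hj hl]
  ring

theorem sec_zero (A : Atl n X) (m : ℕ) : Nonempty (A.Sec m) :=
  ⟨⟨fun _ _ => 0, fun _ => differentiableOn_const 0, fun _ _ _ _ _ => by simp⟩⟩

end Vale.Agent.P272.K
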