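import Vale.Agent.P272.F.K.Chart
import Vale.Agent.P272.F.K.Pow
import Vale.Agent.P272.F.K.Peak

/-! P272 K/LocC (auxiliary names start with `loccx_`; overview in `notes/P272K.md`).

Two different points. `peak` with `pt = ![p, q]`, `ε = 1 / 4`, data `![1, 0]` and `![0, 1]` give `σ`,
`τ` with `‖σ (q') τ (p')‖ < ‖σ (p') τ (q')‖` on the balls (`1 / 16 < 9 / 16` after multiplying by the
exponentials): this is `lc_off`. `lc_sep`: family `![σ ^ k, τ ^ k]` (`sec_pow σ σ`, `sec_pow τ τ`), shrink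
`W` by disjoint neighbourhoods of `p`, `q` (`t2_separation`); `σ (p') ^ k = c σ (q') ^ k` and
`τ (p') ^ k = c τ (q') ^ k` give equal norms of the `k`-th powers, a contradiction. -/

open Metric Set Filter Topology MeasureTheory
open scoped ContDiff ENNReal ComplexConjugate

noncomputable section

namespace Vale.Agent.P272.K

variable {n : ℕ} {X : Type} [TopologicalSpace X]

theorem lc_sep [T2Space X] {A : Atl n X} {m : ℕ} (hm : 1 ≤ m) (σ τ : A.Sec m) {j k : Fin A.N}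
    {p q : X} (hpq : p ≠ q) (h : ∀ᶠ z in 𝓝 (p, q), z.1 ∈ (A.e j).source ∧ z.2 ∈ (A.e k).source ∧
      ‖σ.s k (A.e k z.2) * τ.s j (A.e j z.1)‖ < ‖σ.s j (A.e j z.1) * τ.s k (A.e k z.2)‖) :
    Lc A p q := by
  have hne : ∀ᶠ z : X × X in 𝓝 (p, q), z.1 ≠ z.2 :=
    (isOpen_ne_fun continuous_fst continuous_snd).mem_nhds hpq
  refine ⟨m, hm, _, h.and hne, fun l hl => ?_⟩
  obtain ⟨w₁, h₁⟩ := sec_pow σ σ hl
  obtain ⟨w₂, h₂⟩ := sec_pow τ τ hl
  have e : ∀ z : ℂ, z ^ (l - 1) * z = z ^ l := fun z => by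
    rw [← pow_succ, Nat.sub_add_cancel hl]
  simp only [e] at h₁ h₂
  refine ⟨2, ![w₁, w₂], fun z ⟨⟨hj, hk, hlt⟩, hz⟩ => gd_of hj hk ⟨0, ?_⟩ (fun c hc => ?_)
    fun e => absurd e hz⟩
  · have h0 := norm_pos_iff.1 ((norm_nonneg _).trans_lt hlt)
    show w₁.s j (A.e j z.1) ≠ 0
    rw [h₁]
    exact pow_ne_zero _ (left_ne_zero_of_mul h0)
  · exfalso
    have c1 : w₁.s j (A.e j z.1) = c * w₁.s k (A.e k z.2) := hc 0
    have c2 : w₂.s j (A.e j z.1) = c * w₂.s k (A.e k z.2) := hc 1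
    rw [h₁, h₁] at c1
    rw [h₂, h₂] at c2
    have h3 := pow_lt_pow_left₀ hlt (norm_nonneg _) (Nat.one_le_iff_ne_zero.1 hl)
    rw [← norm_pow, ← norm_pow, mul_pow, mul_pow, c1, c2] at h3
    exact h3.ne (congrArg norm (by ring))

theorem loccx_num {a b c d e f : ℂ} (ha : ‖a * e - 1‖ ≤ 1 / 4) (hb : ‖b * f - 0‖ ≤ 1 / 4)
    (hc : ‖c * e - 0‖ ≤ 1 / 4) (hd : ‖d * f - 1‖ ≤ 1 / 4) : ‖b * c‖ < ‖a * d‖ := by
  rw [sub_zero] at hb hc
  have h1 : ∀ z : ℂ, ‖z - 1‖ ≤ 1 / 4 → 3 / 4 ≤ ‖z‖ := fun z hz => by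
    have := norm_sub_norm_le (1 : ℂ) z
    rw [norm_one, norm_sub_rev] at this
    linarith
  have h2 : ‖b * f‖ * ‖c * e‖ ≤ 1 / 4 * (1 / 4) :=
    mul_le_mul hb hc (norm_nonneg _) (by norm_num)
  have h3 : 3 / 4 * (3 / 4) ≤ ‖a * e‖ * ‖d * f‖ :=
    mul_le_mul (h1 _ ha) (h1 _ hd) (by norm_num) (norm_nonneg _)
  have h4 : ‖b * c‖ * ‖e * f‖ < ‖a * d‖ * ‖e * f‖ := by
    have e1 : ‖b * c‖ * ‖e * f‖ = ‖b * f‖ * ‖c * e‖ := by
      simp only [norm_mul]; ring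
    have e2 : ‖a * d‖ * ‖e * f‖ = ‖a * e‖ * ‖d * f‖ := by
      simp only [norm_mul]; ring
    rw [e1, e2]
    linarith
  exact lt_of_mul_lt_mul_right h4 (norm_nonneg _)

theorem loccx_near (A : Atl n X) (p : X) {ρ : ℝ} (hρ : 0 < ρ) :
    ∀ᶠ x in 𝓝 p, x ∈ (A.e (A.ch p)).source ∧ A.e (A.ch p) x ∈ ball (ct A p) ρ := by
  have hp : p ∈ (A.e (A.ch p)).source := (A.cov p).choose_spec.1
  exact Filter.Eventually.and ((A.e (A.ch p)).open_source.mem_nhds hp)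
    (((A.e (A.ch p)).continuousAt hp).eventually (ball_mem_nhds _ hρ))

theorem lc_off [T2Space X] [CompactSpace X] {A : Atl n X} (v : A.LV) (hv : Ps v) {p q : X}
    (hpq : p ≠ q) : Lc A p q := by
  have hi : Function.Injective ![p, q] := by
    intro a b hab
    fin_cases a <;> fin_cases b
    · rfl
    · exact absurd hab hpq
    · exact absurd hab hpq.symm
    · rfl
  obtain ⟨ρ, P, hρ, -, -, h⟩ := peak v hv hi
  have h1 := h ![fun _ => 1, fun _ => 0] (fun l => by fin_cases l <;> exact differentiable_const _)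
    (1 / 4) (by norm_num)
  have h2 := h ![fun _ => 0, fun _ => 1] (fun l => by fin_cases l <;> exact differentiable_const _)
    (1 / 4) (by norm_num)
  obtain ⟨m, ⟨⟨σ, hσ⟩, τ, hτ⟩, hm⟩ := ((h1.and h2).and (eventually_ge_atTop 1)).exists
  refine lc_sep hm σ τ (j := A.ch p) (k := A.ch q) hpq ?_
  filter_upwards [(loccx_near A p hρ).prod_nhds (loccx_near A q hρ)] with z ⟨⟨a1, a2⟩, b1, b2⟩
  exact ⟨a1, b1, loccx_num (hσ 0 _ a2) (hσ 1 _ b2) (hτ 0 _ a2) (hτ 1 _ b2)⟩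

end Vale.Agent.P272.K
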