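import Vale.Agent.P272.F.K.Defs

/-! P272 K/Ov (auxiliary names start with `ovx_`; overview in `notes/P272K.md`).

Elementary facts on the cover. `hol_ov`: near a point of `ov i j` one has
`f ∘ symm j = (f ∘ symm i) ∘ (e i ∘ symm j)`, and `C.an`. -/

open Metric Set Filter Topology MeasureTheory
open scoped ContDiff ENNReal ComplexConjugate

noncomputable section

namespace Vale.Agent.P272.K

variable {n : ℕ} {X : Type} [TopologicalSpace X]

variable {C : Cv n X} {κ : ℝ}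

theorem bl_sub (C : Cv n X) (i : Fin C.N) : C.bl i ⊆ (C.e i).target := by
  exact ball_subset_closedBall.trans (C.sub i)

theorem U_open (C : Cv n X) (i : Fin C.N) : IsOpen (C.U i) := by
  exact (C.e i).isOpen_inter_preimage isOpen_ball

theorem ov_open (C : Cv n X) (i j : Fin C.N) : IsOpen (C.ov i j) := by
  exact ((C.e j).continuousOn_symm.mono (bl_sub C j)).isOpen_inter_preimage isOpen_ball (U_open C i)

theorem symm_mem_U {j : Fin C.N} {y : E n} (hy : y ∈ C.bl j) : (C.e j).symm y ∈ C.U j := by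
  refine ⟨(C.e j).map_target (bl_sub C j hy), ?_⟩
  rw [(C.e j).right_inv (bl_sub C j hy)]
  exact hy

theorem mem_ov {i j : Fin C.N} {x : X} (hi : x ∈ C.U i) (hj : x ∈ C.U j) :
    C.e j x ∈ C.ov i j := by
  refine ⟨hj.2, ?_⟩
  rw [mem_preimage, (C.e j).left_inv hj.1]
  exact hi

theorem chi_zero {i : Fin C.N} {x : X} (h : x ∉ C.U i) : C.χ i x = 0 := by
  exact (C.supp i x h).self_of_nhds

theorem chi_le (C : Cv n X) (i : Fin C.N) (x : X) : C.χ i x ≤ 1 := by
  rw [← C.sum x]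
  exact Finset.single_le_sum (f := fun k => C.χ k x) (fun k _ => C.nn k x) (Finset.mem_univ i)

theorem exists_U (C : Cv n X) (x : X) : ∃ i, x ∈ C.U i := by
  obtain ⟨i, -, hi⟩ := Finset.exists_ne_zero_of_sum_ne_zero ((C.sum x).trans_ne one_ne_zero)
  exact ⟨i, by_contra fun h => hi (chi_zero h)⟩

theorem hol_ov {i : Fin C.N} {f : X → ℂ} (hf : C.Hol i f) (j : Fin C.N) :
    DifferentiableOn ℂ (f ∘ (C.e j).symm) (C.ov i j) := by
  intro y hy
  have h1 := (C.an i j _ hy.2.1 (symm_mem_U hy.1).1).differentiableAt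
  rw [(C.e j).right_inv (bl_sub C j hy.1)] at h1
  have h2 : DifferentiableAt ℂ (f ∘ (C.e i).symm) ((C.e i ∘ (C.e j).symm) y) :=
    hf.differentiableAt (isOpen_ball.mem_nhds hy.2.2)
  have h3 : ∀ z ∈ C.ov i j,
      (f ∘ (C.e j).symm) z = ((f ∘ (C.e i).symm) ∘ (C.e i ∘ (C.e j).symm)) z := fun z hz => by
    simp only [Function.comp, (C.e i).left_inv hz.2.1]
  exact (h2.comp y h1).differentiableWithinAt.congr h3 (h3 y hy)

theorem u_hol (Λ : Lb C κ) {F : Fin C.N → X → ℂ} (hF : ∀ i, C.Hol i (F i)) (i j : Fin C.N) :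
    DifferentiableOn ℂ (Λ.u F i j ∘ (C.e j).symm) (C.ov i j) := by
  exact ((Λ.hol i j).mul (hol_ov (hF i) j)).sub ((hF j).mono inter_subset_left)

theorem dj_le (Λ : Lb C κ) (F : Fin C.N → X → ℂ) (j : Fin C.N) : Λ.dj F j ≤ Λ.dd F := by
  exact Finset.single_le_sum (f := Λ.dj F) (fun _ _ => zero_le) (Finset.mem_univ j)

/-- `F j + g j` is a global section. -/
theorem g_cmp (Λ : Lb C κ) (F : Fin C.N → X → ℂ) {i j : Fin C.N} {x : X} (hi : x ∈ C.U i)
    (hj : x ∈ C.U j) : F j x + Λ.g F j x = Λ.t i j x * (F i x + Λ.g F i x) := by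
  have hs : ∑ k, (C.χ k x : ℂ) = 1 := by exact_mod_cast C.sum x
  have key : ∀ j, F j x + Λ.g F j x = ∑ k, (C.χ k x : ℂ) * (Λ.t k j x * F k x) := fun j => by
    simp only [Lb.g, Lb.u, mul_sub, Finset.sum_sub_distrib, ← Finset.sum_mul, hs]
    ring
  rw [key, key, Finset.mul_sum]
  refine Finset.sum_congr rfl fun k _ => ?_
  by_cases hk : x ∈ C.U k
  · rw [← Λ.coc k i j x hk hi hj]
    ring
  · simp [chi_zero hk]

end Vale.Agent.P272.K
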