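import Vale.Agent.P272.F.K.Jac
import Vale.Agent.P272.F.K.Ov

/-! P272 K/Glue (auxiliary names start with `gluex_`; overview in `notes/P272K.md`).

Gluing. For `x ∈ U i` and a chart `j` put
`G i j x = s i x * exp (m Q i (e i x)) * dt A (k i) j x ^ m`; it does not depend on `i` (`hc`, `dt_coc`).
Define `σ.s j y = G (I x) j x`, `x = symm j y`, `I x` chosen by `exists_U`. Near `y ∈ target j` it is
equal to `G i j (symm j ·)` for the fixed `i = I x` (`U_open`), which is holomorphic:
`s i ∘ symm j = (s i ∘ symm i) ∘ (e i ∘ symm j)` near `y`, `an_tr`, `dt_an`. -/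

open Metric Set Filter Topology MeasureTheory
open scoped ContDiff ENNReal ComplexConjugate

noncomputable section

namespace Vale.Agent.P272.K

variable {n : ℕ} {X : Type} [TopologicalSpace X]

variable {A : Atl n X} {C : Cv n X} {k : Fin C.N → Fin A.N} {Q : Fin C.N → E n → ℂ} {m : ℕ}

theorem gluex_src (hk : C.On A k) {i : Fin C.N} {x : X} (h : x ∈ C.U i) :
    x ∈ (A.e (k i)).source := by
  rw [← hk i]
  exact h.1

theorem gluex_diff (hk : C.On A k) (hQ : ∀ i, Differentiable ℂ (Q i)) {f : X → ℂ} {i : Fin C.N}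
    (hf : C.Hol i f) {j : Fin A.N} {x : X} (hi : x ∈ C.U i) (hj : x ∈ (A.e j).source) :
    DifferentiableAt ℂ (fun y => f ((A.e j).symm y) *
      Complex.exp (m * Q i (C.e i ((A.e j).symm y))) * dt A (k i) j ((A.e j).symm y) ^ m)
      (A.e j x) := by
  have h1 : DifferentiableAt ℂ (C.e i ∘ (A.e j).symm) (A.e j x) := by
    rw [hk i]
    exact (an_tr (gluex_src hk hi) hj).differentiableAt
  have e1 : (C.e i ∘ (A.e j).symm) (A.e j x) = C.e i x := by
    rw [Function.comp_apply, (A.e j).left_inv hj]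
  have h2 : DifferentiableAt ℂ (f ∘ (C.e i).symm) ((C.e i ∘ (A.e j).symm) (A.e j x)) := by
    rw [e1]
    exact hf.differentiableAt (isOpen_ball.mem_nhds hi.2)
  have h3 : DifferentiableAt ℂ (fun y => f ((A.e j).symm y)) (A.e j x) := by
    refine (h2.comp _ h1).congr_of_eventuallyEq ?_
    have c : ContinuousAt (A.e j).symm (A.e j x) :=
      (A.e j).continuousAt_symm ((A.e j).map_source hj)
    have hm : (C.e i).source ∈ 𝓝 ((A.e j).symm (A.e j x)) := by
      rw [(A.e j).left_inv hj]
      exact (C.e i).open_source.mem_nhds hi.1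
    filter_upwards [c.eventually hm] with y hy
    simp only [Function.comp_apply]
    rw [(C.e i).left_inv hy]
  have h4 : DifferentiableAt ℂ (fun y => Q i (C.e i ((A.e j).symm y))) (A.e j x) :=
    (hQ i _).comp (A.e j x) h1
  have h5 : DifferentiableAt ℂ (fun y => dt A (k i) j ((A.e j).symm y)) (A.e j x) :=
    (dt_an (gluex_src hk hi) hj hj).differentiableAt
  exact (h3.fun_mul (h4.const_mul _).cexp).fun_mul (h5.fun_pow m)

theorem glue (hk : C.On A k) (hQ : ∀ i, Differentiable ℂ (Q i)) {s : Fin C.N → X → ℂ}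
    (hs : ∀ i, C.Hol i (s i))
    (hc : ∀ i j x, x ∈ C.U i → x ∈ C.U j → s j x = tw A k Q m i j x * s i x) :
    ∃ σ : A.Sec m, ∀ i, ∀ y ∈ C.bl i,
      σ.s (k i) y = s i ((C.e i).symm y) * Complex.exp (m * Q i y) := by
  choose I hI using exists_U C
  have ind : ∀ i i' j x, x ∈ C.U i → x ∈ C.U i' → x ∈ (A.e j).source →
      s i' x * Complex.exp (m * Q i' (C.e i' x)) * dt A (k i') j x ^ m =
        s i x * Complex.exp (m * Q i (C.e i x)) * dt A (k i) j x ^ m := by
    intro i i' j x hi hi' hj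
    have h0 := Complex.exp_ne_zero (m * Q i' (C.e i' x))
    rw [hc i i' x hi hi', ← dt_coc (gluex_src hk hi) (gluex_src hk hi') hj, mul_pow, tw,
      Complex.exp_sub]
    field_simp
  refine ⟨⟨fun j y => s (I ((A.e j).symm y)) ((A.e j).symm y) *
    Complex.exp (m * Q (I ((A.e j).symm y)) (C.e (I ((A.e j).symm y)) ((A.e j).symm y))) *
      dt A (k (I ((A.e j).symm y))) j ((A.e j).symm y) ^ m, fun j y hy => ?_,
    fun j l x hj hl => ?_⟩, fun i y hy => ?_⟩
  · have hx := (A.e j).map_target hy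
    have h1 := gluex_diff (m := m) hk hQ (hs (I ((A.e j).symm y))) (hI _) hx
    rw [(A.e j).right_inv hy] at h1
    refine (h1.congr_of_eventuallyEq ?_).differentiableWithinAt
    filter_upwards [(A.e j).open_target.mem_nhds hy, ((A.e j).continuousAt_symm hy).eventually
      ((U_open C _).mem_nhds (hI ((A.e j).symm y)))] with w h2 h3
    exact ind _ _ j _ h3 (hI _) ((A.e j).map_target h2)
  · simp only [(A.e j).left_inv hj, (A.e l).left_inv hl]
    rw [← dt_coc (gluex_src hk (hI x)) hj hl, mul_pow, ← mul_assoc]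
    rfl
  · have h1 := symm_mem_U hy
    have h2 := (C.e i).right_inv (bl_sub C i hy)
    have h3 := ind i _ (k i) _ h1 (hI _) (gluex_src hk h1)
    rw [dt_one (gluex_src hk h1), one_pow, mul_one, h2] at h3
    simp only [← hk i]
    exact h3

end Vale.Agent.P272.K
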