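import Vale.Agent.P272.F.K.Pow

/-! P272 K/Amp (auxiliary names start with `ampx_`; overview in `notes/P272K.md`).

Compactness of `X × X` (`IsCompact.elim_nhds_subcover`): finitely many `W z`, `z ∈ t`, with degrees
`m z`; `M = ∏ z ∈ t, m z`, `k z = M / m z`; first restate `Lc` as: for every `M ≥ 1` with `m z ∣ M` there
is a finite family of `A.Sec M` (obtain `M = m z * k`, `subst`). Concatenate the families over
`Option (Σ z : t, Fin (a z))` (a zero section at `none`, `sec_zero`), which is equivalent to some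
`Fin (N + 1)`; `Gd` is monotone in the family (`gd_mono`). The conditions of `Ample` are the parts of
`Gd σ p p`, `Gd σ p q`. -/

open Metric Set Filter Topology MeasureTheory
open scoped ContDiff ENNReal ComplexConjugate

noncomputable section

namespace Vale.Agent.P272.K

variable {n : ℕ} {X : Type} [TopologicalSpace X]

variable {A : Atl n X}

theorem gd_mono {m : ℕ} {ι ι' : Type} {σ : ι → A.Sec m} {τ : ι' → A.Sec m}
    (h : ∀ i, ∃ i', τ i' = σ i) {p q : X} (hσ : Gd σ p q) : Gd τ p q := by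
  intro j k hj hk
  obtain ⟨⟨i, hi⟩, h2, h3⟩ := hσ j k hj hk
  refine ⟨?_, fun c hc => h2 c fun i => ?_, fun e a c hc => h3 e a c fun i => ?_⟩
  · obtain ⟨i', hi'⟩ := h i
    exact ⟨i', by rwa [hi']⟩
  · obtain ⟨i', hi'⟩ := h i
    rw [← hi']
    exact hc i'
  · obtain ⟨i', hi'⟩ := h i
    rw [← hi']
    exact hc i'

theorem ample_of_lc [CompactSpace X] (h : ∀ p q, Lc A p q) : A.Ample := by
  classical
  have h' : ∀ z : X × X, ∃ m : ℕ, 1 ≤ m ∧ ∃ W ∈ 𝓝 z, ∀ M : ℕ, 1 ≤ M → m ∣ M →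
      ∃ (a : ℕ) (σ : Fin a → A.Sec M), ∀ z ∈ W, Gd σ z.1 z.2 := by
    intro z
    obtain ⟨m, hm, W, hW, hk⟩ := h z.1 z.2
    refine ⟨m, hm, W, hW, ?_⟩
    rintro _ hM ⟨k, rfl⟩
    exact hk k (Nat.pos_of_mul_pos_left hM)
  choose m hm W hW hk using h'
  obtain ⟨t, -, ht⟩ := isCompact_univ.elim_nhds_subcover W fun z _ => hW z
  have hM : 0 < ∏ z ∈ t, m z := Finset.prod_pos fun z _ => hm z
  choose a σ hσ using fun z : t => hk z (∏ z ∈ t, m z) hM (Finset.dvd_prod_of_mem m z.2)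
  obtain ⟨o⟩ := sec_zero A (∏ z ∈ t, m z)
  obtain ⟨τ, hτ⟩ : ∃ τ : Option (Σ z : t, Fin (a z)) → A.Sec (∏ z ∈ t, m z),
      ∀ z i, τ (some ⟨z, i⟩) = σ z i := ⟨fun u => u.elim o fun w => σ w.1 w.2, fun _ _ => rfl⟩
  have e : Option (Σ z : t, Fin (a z)) ≃ Fin (Fintype.card (Σ z : t, Fin (a z)) + 1) :=
    Fintype.equivFinOfCardEq Fintype.card_option
  have hG : ∀ p q, Gd (τ ∘ e.symm) p q := by
    intro p q
    obtain ⟨z, hz, hw⟩ := mem_iUnion₂.1 (ht (mem_univ (p, q)))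
    refine gd_mono (fun i => ⟨e (some ⟨⟨z, hz⟩, i⟩), ?_⟩) (hσ ⟨z, hz⟩ (p, q) hw)
    rw [Function.comp_apply, e.symm_apply_apply, hτ]
  exact ⟨_, _, τ ∘ e.symm, hM, fun j p hj => (hG p p j j hj hj).1,
    fun j k p q c hj hk => (hG p q j k hj hk).2.1 c,
    fun j p a c hj => (hG p p j j hj hj).2.2 rfl a c⟩

end Vale.Agent.P272.K
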