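import Vale.Agent.P272.F.K.LocB
import Vale.Agent.P272.F.K.LocC
import Vale.Agent.P272.F.K.Amp

/-! P272 block K: the Kodaira embedding theorem for the canonical bundle (no task here). -/

namespace Vale.Agent.P272

variable {n : ℕ} {X : Type} [TopologicalSpace X] [T2Space X] [CompactSpace X] {A : Atl n X}

theorem kodaira (hn : 1 ≤ n) (v : A.LV)
    (h : ∀ j, ∀ y ∈ (A.e j).target, ∀ a, a ≠ 0 → 0 < levi (v.l j) y a) : A.Ample := by
  have _ := hn
  refine K.ample_of_lc fun p q => ?_
  by_cases hpq : p = q
  · subst hpq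
    exact K.lc_diag v h p
  · exact K.lc_off v h hpq

end Vale.Agent.P272
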