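import Vale.Agent.P272.F.K.Lev
import Vale.Agent.P271.H.CV

/-! P272 K/CV (auxiliary names start with `cvx_`; overview in `notes/P272K.md`).

Change of variables: `lintegral_image_eq_lintegral_abs_det_fderiv_mul` for the Haar measure `lam n`
(`lam_haar`) with the derivative `(fderiv ℂ T y).restrictScalars ℝ`. `det_real`: conjugate by
`EuclideanSpace.equiv` (`LinearMap.det_conj`) and use `P271.EtDom.cv_det`, `LinearMap.det_toMatrix'`. -/

open Metric Set Filter Topology MeasureTheory
open scoped ContDiff ENNReal ComplexConjugate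

noncomputable section

namespace Vale.Agent.P272.K

variable {n : ℕ} {X : Type} [TopologicalSpace X]

theorem det_real (T : L n) : |(T.restrictScalars ℝ).det| = ‖T.det‖ ^ 2 := by
  have h2 : (T.restrictScalars ℝ).det =
      Algebra.norm ℝ (LinearMap.det (T : E n →ₗ[ℂ] E n)) := by
    rw [← LinearMap.det_restrictScalars]
    rfl
  rw [h2, Algebra.norm_complex_apply, abs_of_nonneg (Complex.normSq_nonneg _),
    Complex.normSq_eq_norm_sq]

theorem cv_flat {T : E n → E n} {S : Set (E n)} (hS : MeasurableSet S)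
    (hT : ∀ y ∈ S, DifferentiableAt ℂ T y) (hi : InjOn T S) (G : E n → ℝ≥0∞) :
    ∫⁻ y in T '' S, G y ∂lam n =
      ∫⁻ y in S, ENNReal.ofReal (‖(fderiv ℂ T y).det‖ ^ 2) * G (T y) ∂lam n := by
  have := lam_haar (n := n)
  rw [lintegral_image_eq_lintegral_abs_det_fderiv_mul (lam n) hS
    (f' := fun y => (fderiv ℂ T y).restrictScalars ℝ)
    (fun y hy => ((hT y hy).hasFDerivAt.restrictScalars ℝ).hasFDerivWithinAt) hi]
  simp only [det_real]

end Vale.Agent.P272.K
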