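import Vale.Agent.P272.F.K.Jac

/-! P272 K/Chart (auxiliary names start with `chartx_`; overview in `notes/P272K.md`).

Independence of the charts. `σ.cmp` with `dt ≠ 0`. For `Im`: near `y' = e j' p`,
`s j' = (s j ∘ T) * D ^ m` with `T = e j ∘ symm j'`, `D = dt A j j' ∘ symm j'` (`dt_an`); the product and
chain rules give `fderiv (s j) (tr a) = c' * s j`, so `tr j j' a = 0`, and `tr j' j * tr j j' = 1`. -/

open Metric Set Filter Topology MeasureTheory
open scoped ContDiff ENNReal ComplexConjugate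

noncomputable section

namespace Vale.Agent.P272.K

variable {n : ℕ} {X : Type} [TopologicalSpace X]

variable {A : Atl n X} {m : ℕ} {ι : Type} {σ : ι → A.Sec m} {j j' k k' : Fin A.N} {p q : X}

theorem nz_chart (hj : p ∈ (A.e j).source) (hj' : p ∈ (A.e j').source) (h : Nz σ j p) :
    Nz σ j' p := by
  obtain ⟨i, hi⟩ := h
  refine ⟨i, ?_⟩
  rw [(σ i).cmp j j' p hj hj']
  exact mul_ne_zero hi (pow_ne_zero _ (dt_ne hj hj'))

theorem ij_chart (hj : p ∈ (A.e j).source) (hj' : p ∈ (A.e j').source)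
    (hk : q ∈ (A.e k).source) (hk' : q ∈ (A.e k').source) (h : Ij σ j k p q) :
    Ij σ j' k' p q := by
  intro c hc
  have h0 : dt A j j' p ^ m ≠ 0 := pow_ne_zero _ (dt_ne hj hj')
  refine h (c * dt A k k' q ^ m / dt A j j' p ^ m) fun i => ?_
  have h1 := hc i
  rw [(σ i).cmp j j' p hj hj', (σ i).cmp k k' q hk hk'] at h1
  rw [div_mul_eq_mul_div, eq_div_iff h0]
  unfold dt
  linear_combination h1

theorem chartx_ev {m : ℕ} (s : A.Sec m) (hj : p ∈ (A.e j).source) (hj' : p ∈ (A.e j').source) :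
    s.s j' =ᶠ[𝓝 (A.e j' p)] fun y => s.s j ((A.e j ∘ (A.e j').symm) y) *
      (dt A j j' ∘ (A.e j').symm) y ^ m := by
  have h1 := (A.e j').open_target.mem_nhds ((A.e j').map_source hj')
  have h2 : ContinuousAt (A.e j').symm (A.e j' p) :=
    (A.e j').continuousAt_symm ((A.e j').map_source hj')
  have h3 : (A.e j).source ∈ 𝓝 ((A.e j').symm (A.e j' p)) := by
    rw [(A.e j').left_inv hj']
    exact (A.e j).open_source.mem_nhds hj
  filter_upwards [h1, h2.preimage_mem_nhds h3] with y a b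
  have h4 := s.cmp j j' _ b ((A.e j').map_target a)
  rw [(A.e j').right_inv a] at h4
  exact h4

theorem im_chart (hj : p ∈ (A.e j).source) (hj' : p ∈ (A.e j').source) (h : Im σ j p) :
    Im σ j' p := by
  intro a c hc
  have hd : DifferentiableAt ℂ (fun y => (dt A j j' ∘ (A.e j').symm) y ^ m) (A.e j' p) :=
    (dt_an hj hj' hj').differentiableAt.fun_pow m
  have hT : HasFDerivAt (A.e j ∘ (A.e j').symm) (A.tr j j' p) (A.e j' p) :=
    (A.hol j j' p hj hj').hasFDerivAt
  have e1 : (A.e j ∘ (A.e j').symm) (A.e j' p) = A.e j p := by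
    simp only [Function.comp, (A.e j').left_inv hj']
  have e2 : (dt A j j' ∘ (A.e j').symm) (A.e j' p) = dt A j j' p := by
    simp only [Function.comp, (A.e j').left_inv hj']
  have h0 : dt A j j' p ^ m ≠ 0 := pow_ne_zero _ (dt_ne hj hj')
  obtain ⟨G, hG⟩ : ∃ G, HasFDerivAt (𝕜 := ℂ) (fun y => (dt A j j' ∘ (A.e j').symm) y ^ m) G
      (A.e j' p) := ⟨_, hd.hasFDerivAt⟩
  have h1 : A.tr j j' p a = 0 := by
    refine h _ (c - G a / dt A j j' p ^ m) fun i => ?_
    have hs : HasFDerivAt ((σ i).s j) (fderiv ℂ ((σ i).s j) (A.e j p))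
        ((A.e j ∘ (A.e j').symm) (A.e j' p)) := by
      rw [e1]
      exact (((σ i).hol j).differentiableAt
        ((A.e j).open_target.mem_nhds ((A.e j).map_source hj))).hasFDerivAt
    have h2 := (((hs.comp _ hT).fun_mul hG).congr_of_eventuallyEq (chartx_ev (σ i) hj hj')).fderiv
    have h3 := hc i
    rw [h2, (σ i).cmp j j' p hj hj'] at h3
    simp only [add_apply, smul_apply, smul_eq_mul, ContinuousLinearMap.comp_apply, e2,
      Function.comp_apply, (A.e j').left_inv hj'] at h3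
    apply mul_left_cancel₀ h0
    have h4 : dt A j j' p ^ m * ((c - G a / dt A j j' p ^ m) * (σ i).s j (A.e j p)) =
        (c * dt A j j' p ^ m - G a) * (σ i).s j (A.e j p) := by field_simp
    rw [h4]
    unfold dt at h3 ⊢
    linear_combination h3
  have h5 : (A.tr j' j p * A.tr j j' p) a = a := by
    rw [tr_coc hj' hj hj', tr_one hj']; rfl
  rw [← h5, ContinuousLinearMap.mul_apply, h1, map_zero]

theorem gd_of (hj : p ∈ (A.e j).source) (hk : q ∈ (A.e k).source) (h1 : Nz σ j p)
    (h2 : Ij σ j k p q) (h3 : p = q → Im σ j p) : Gd σ p q := fun _ _ hj' hk' =>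
  ⟨nz_chart hj hj' h1, ij_chart hj hj' hk hk' h2, fun e => im_chart hj hj' (h3 e)⟩

end Vale.Agent.P272.K
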