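import Vale.Agent.P272.F.K.Jac

/-! P272 K/CovA (auxiliary names start with `covax_`; overview in `notes/P272K.md`).

Partition of unity. `cova_bump`: `b x = f (e x)` on the source, `0` elsewhere, with
`f : ContDiffBump c` of radii `r / 2`, `3 r / 4`; outside the compact (so closed) set
`symm '' closedBall c (3 r / 4)` it vanishes; it is smooth in every chart (`an_tr`; see
`exists_cutoff` in `P271/H/Nbhd.lean` for the pattern). Then `χ i = b i / ∑ b`, the sum is positive.
`B`: `fderiv ℝ (χ i ∘ symm)` is continuous on the target, which contains the compact closed ball. -/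

open Metric Set Filter Topology MeasureTheory
open scoped ContDiff ENNReal ComplexConjugate

noncomputable section

namespace Vale.Agent.P272.K

variable {n : ℕ} {X : Type} [TopologicalSpace X]

variable [T2Space X] {A : Atl n X}

theorem cova_bump (k : Fin A.N) {c : E n} {r : ℝ} (hr : 0 < r)
    (sub : closedBall c r ⊆ (A.e k).target) : ∃ b : X → ℝ, A.Sm b ∧ (∀ x, 0 ≤ b x) ∧
      (∀ x, x ∈ (A.e k).source → A.e k x ∈ ball c (r / 2) → 0 < b x) ∧
      ∀ x, ¬ (x ∈ (A.e k).source ∧ A.e k x ∈ ball c r) → b =ᶠ[𝓝 x] 0 := by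
  let f : ContDiffBump c := ⟨r / 2, 3 * r / 4, by linarith, by linarith⟩
  have hKt : closedBall c (3 * r / 4) ⊆ (A.e k).target :=
    (closedBall_subset_closedBall (by linarith)).trans sub
  have hz : ∀ y : E n, y ∉ closedBall c (3 * r / 4) → f y = 0 := fun y hy =>
    f.zero_of_le_dist (le_of_lt (not_le.1 hy))
  have hf : ContDiff ℝ ∞ f := f.contDiff
  have h1 : IsClosed ((A.e k).symm '' closedBall c (3 * r / 4)) :=
    ((isCompact_closedBall _ _).image_of_continuousOn
      ((A.e k).continuousOn_symm.mono hKt)).isClosed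
  set b : X → ℝ := indicator (A.e k).source fun x => f (A.e k x) with hb
  have hv : ∀ x, ¬ (x ∈ (A.e k).source ∧ A.e k x ∈ ball c r) → b =ᶠ[𝓝 x] 0 := by
    intro x hx
    have h2 : x ∈ ((A.e k).symm '' closedBall c (3 * r / 4))ᶜ := by
      rintro ⟨w, hw, e⟩
      apply hx
      rw [← e, (A.e k).right_inv (hKt hw)]
      exact ⟨(A.e k).map_target (hKt hw), closedBall_subset_ball (by linarith) hw⟩
    filter_upwards [h1.isOpen_compl.mem_nhds h2] with z hz1
    by_cases hz' : z ∈ (A.e k).source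
    · rw [hb, indicator_of_mem hz']
      exact hz _ fun hm => hz1 ⟨_, hm, (A.e k).left_inv hz'⟩
    · rw [hb, indicator_of_notMem hz']
      rfl
  refine ⟨b, fun j y hy => ?_, fun x => ?_, fun x hx hx2 => ?_, hv⟩
  · refine ContDiffAt.contDiffWithinAt ?_
    have hc : ContinuousAt (A.e j).symm y := (A.e j).continuousAt_symm hy
    have hxk : (A.e j).symm y ∈ (A.e j).source := (A.e j).map_target hy
    by_cases hx : (A.e j).symm y ∈ (A.e k).source
    · have a1 : AnalyticAt ℂ (A.e k ∘ (A.e j).symm) y := by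
        have := an_tr hx hxk
        rwa [(A.e j).right_inv hy] at this
      have a2 : ContDiffAt ℝ ∞ (A.e k ∘ (A.e j).symm) y :=
        (a1.contDiffAt (n := ∞)).restrict_scalars ℝ
      refine (hf.contDiffAt.comp y a2).congr_of_eventuallyEq ?_
      filter_upwards [hc.eventually ((A.e k).open_source.mem_nhds hx)] with z hz1
      exact indicator_of_mem hz1 fun x => f (A.e k x)
    · refine (contDiffAt_const (c := (0 : ℝ))).congr_of_eventuallyEq ?_
      filter_upwards [hc.eventually (hv _ fun h => hx h.1)] with z hz1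
      exact hz1
  · exact indicator_nonneg (fun _ _ => f.nonneg) x
  · rw [hb, indicator_of_mem hx, f.one_of_mem_closedBall (ball_subset_closedBall hx2)]
    exact one_pos

theorem cov_pu {N : ℕ} (k : Fin N → Fin A.N) (c : Fin N → E n) (r : Fin N → ℝ)
    (hr : ∀ i, 0 < r i) (sub : ∀ i, closedBall (c i) (r i) ⊆ (A.e (k i)).target)
    (cov : ∀ x, ∃ i, x ∈ (A.e (k i)).source ∧ A.e (k i) x ∈ ball (c i) (r i / 2)) :
    ∃ (χ : Fin N → X → ℝ) (B : ℝ), (∀ i x, 0 ≤ χ i x) ∧ (∀ x, ∑ i, χ i x = 1) ∧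
      (∀ i x, ¬ (x ∈ (A.e (k i)).source ∧ A.e (k i) x ∈ ball (c i) (r i)) → χ i =ᶠ[𝓝 x] 0) ∧
      (∀ i j, ContDiffOn ℝ ∞ (χ i ∘ (A.e (k j)).symm) (ball (c j) (r j))) ∧
      ∀ i j, ∀ y ∈ ball (c j) (r j), ‖fderiv ℝ (χ i ∘ (A.e (k j)).symm) y‖ ≤ B := by
  choose b hb1 hb2 hb3 hb4 using fun i => cova_bump (A := A) (k i) (hr i) (sub i)
  have hpos : ∀ x, 0 < ∑ i, b i x := by
    intro x
    obtain ⟨i, h1, h2⟩ := cov x
    exact Finset.sum_pos' (fun i _ => hb2 i x) ⟨i, Finset.mem_univ i, hb3 i x h1 h2⟩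
  have hsm : ∀ i j, ContDiffOn ℝ ∞ ((fun x => b i x / ∑ l, b l x) ∘ (A.e (k j)).symm)
      (A.e (k j)).target := fun i j =>
    (hb1 i (k j)).div (ContDiffOn.sum fun l _ => hb1 l (k j)) fun y _ => (hpos _).ne'
  have hbd : ∀ i j, ∃ B : ℝ, ∀ y ∈ closedBall (c j) (r j),
      ‖fderiv ℝ ((fun x => b i x / ∑ l, b l x) ∘ (A.e (k j)).symm) y‖ ≤ B := fun i j =>
    (isCompact_closedBall _ _).exists_bound_of_continuousOn
      (((hsm i j).continuousOn_fderiv_of_isOpen (A.e (k j)).open_target (by simp)).mono (sub j))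
  choose B hB using hbd
  refine ⟨fun i x => b i x / ∑ l, b l x, ∑ i, ∑ j, |B i j|,
    fun i x => div_nonneg (hb2 i x) (hpos x).le, fun x => ?_, fun i x hx => ?_,
    fun i j => (hsm i j).mono (ball_subset_closedBall.trans (sub j)), fun i j y hy => ?_⟩
  · rw [← Finset.sum_div, div_self (hpos x).ne']
  · filter_upwards [hb4 i x hx] with z hz
    simp [hz]
  · refine ((hB i j y (ball_subset_closedBall hy)).trans (le_abs_self _)).trans ?_
    refine (Finset.single_le_sum (f := fun j => |B i j|) (fun _ _ => abs_nonneg _)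
      (Finset.mem_univ j)).trans ?_
    exact Finset.single_le_sum (f := fun i => ∑ j, |B i j|)
      (fun _ _ => Finset.sum_nonneg fun _ _ => abs_nonneg _) (Finset.mem_univ i)

end Vale.Agent.P272.K
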