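import Vale.Agent.P272.F.K.Lev

/-! P272 K/Nq (auxiliary names start with `nqx_`; overview in `notes/P272K.md`).

Elementary facts on `nq`. For `nq_add` use `‖a + b‖ ^ 2 ≤ 2 ‖a‖ ^ 2 + 2 ‖b‖ ^ 2`,
`lintegral_add_left'` (`ContinuousOn.aemeasurable`) and `lintegral_const_mul'`. -/

open Metric Set Filter Topology MeasureTheory
open scoped ContDiff ENNReal ComplexConjugate

noncomputable section

namespace Vale.Agent.P272.K

variable {n : ℕ} {X : Type} [TopologicalSpace X]

variable {φ : E n → ℝ} {S T : Set (E n)} {f g : E n → ℂ}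

theorem nq_mono (h : S ⊆ T) : nq φ S f ≤ nq φ T f := by
  exact lintegral_mono_set h

theorem nq_congr (hS : MeasurableSet S) (h : ∀ y ∈ S, ‖f y‖ = ‖g y‖) : nq φ S f = nq φ S g := by
  exact setLIntegral_congr_fun hS fun y hy => by simp only [h y hy]

theorem nq_zero (hS : MeasurableSet S) (h : ∀ y ∈ S, f y = 0) : nq φ S f = 0 := by
  rw [nq, setLIntegral_congr_fun hS (g := fun _ => 0) fun y hy => by simp [h y hy]]
  simp

theorem nq_aem (hS : MeasurableSet S) (hφ : ContinuousOn φ S) (hf : ContinuousOn f S) :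
    AEMeasurable (fun y => ENNReal.ofReal (‖f y‖ ^ 2 * Real.exp (-φ y))) ((lam n).restrict S) := by
  have h1 : ContinuousOn (fun y => ‖f y‖ ^ 2 * Real.exp (-φ y)) S :=
    (hf.norm.pow 2).mul (Real.continuous_exp.comp_continuousOn hφ.neg)
  exact (h1.aemeasurable hS).ennreal_ofReal

theorem nq_tri {h : E n → ℂ} (hS : MeasurableSet S) (hφ : ContinuousOn φ S)
    (hf : ContinuousOn f S) (hh : ∀ y ∈ S, ‖h y‖ ≤ ‖f y‖ + ‖g y‖) :
    nq φ S h ≤ 2 * nq φ S f + 2 * nq φ S g := by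
  have h1 := nq_aem hS hφ hf
  rw [nq, nq, nq, ← lintegral_const_mul' _ _ (by simp), ← lintegral_const_mul' _ _ (by simp),
    ← lintegral_add_left' (h1.const_mul 2)]
  refine setLIntegral_mono' hS fun y hy => ?_
  have e := (Real.exp_pos (-φ y)).le
  have h2 : ‖h y‖ ^ 2 ≤ 2 * ‖f y‖ ^ 2 + 2 * ‖g y‖ ^ 2 := by
    have h3 := pow_le_pow_left₀ (norm_nonneg _) (hh y hy) 2
    nlinarith [sq_nonneg (‖f y‖ - ‖g y‖)]
  rw [← ENNReal.ofReal_ofNat 2, ← ENNReal.ofReal_mul (by norm_num),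
    ← ENNReal.ofReal_mul (by norm_num), ← ENNReal.ofReal_add (by positivity) (by positivity)]
  refine ENNReal.ofReal_le_ofReal ?_
  nlinarith [mul_le_mul_of_nonneg_right h2 e]

theorem nq_le {D : ℝ} (hS : MeasurableSet S) (h : ∀ y ∈ S, ‖f y‖ ^ 2 * Real.exp (-φ y) ≤ D) :
    nq φ S f ≤ ENNReal.ofReal D * lam n S := by
  rw [← setLIntegral_const]
  exact setLIntegral_mono' hS fun y hy => ENNReal.ofReal_le_ofReal (h y hy)

theorem lam_ball (c : E n) (r : ℝ) : lam n (ball c r) ≠ ⊤ := by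
  have h1 : Measurable (WithLp.toLp 2 : (Fin n → ℂ) → E n) :=
    (PiLp.continuous_toLp 2 _).measurable
  rw [lam, Measure.map_apply h1 measurableSet_ball]
  refine ((measure_mono (t := closedBall c.ofLp r) fun x hx => ?_).trans_lt
    measure_closedBall_lt_top).ne
  have h2 : dist (WithLp.toLp 2 x : E n) c < r := hx
  refine (dist_pi_le_iff (dist_nonneg.trans h2.le)).2 fun i => le_trans ?_ h2.le
  exact PiLp.dist_apply_le (WithLp.toLp 2 x : E n) c i

/-- A finite sum of indicator terms. -/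
theorem nq_sum {N : ℕ} {O : Fin N → Set (E n)} {u : Fin N → E n → ℂ} (hO : ∀ i, IsOpen (O i))
    (hOS : ∀ i, O i ⊆ S) (hφ : ContinuousOn φ S) (hu : ∀ i, ContinuousOn (u i) (O i)) :
    ∫⁻ y in S, ENNReal.ofReal ((∑ i, (O i).indicator (fun w => ‖u i w‖ ^ 2) y) *
      Real.exp (-φ y)) ∂lam n ≤ ∑ i, nq φ (O i) (u i) := by
  refine (setLIntegral_le_lintegral _ _).trans ?_
  have h1 : ∀ i, nq φ (O i) (u i) = ∫⁻ y, (O i).indicator
      (fun y => ENNReal.ofReal (‖u i y‖ ^ 2 * Real.exp (-φ y))) y ∂lam n := fun i =>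
    (lintegral_indicator (hO i).measurableSet _).symm
  simp only [h1]
  rw [← lintegral_finsetSum' _ fun i _ => (aemeasurable_indicator_iff (hO i).measurableSet).2
    (nq_aem (hO i).measurableSet (hφ.mono (hOS i)) (hu i))]
  refine lintegral_mono fun y => ?_
  have e := (Real.exp_pos (-φ y)).le
  rw [Finset.sum_mul, ENNReal.ofReal_sum_of_nonneg fun i _ =>
    mul_nonneg (indicator_nonneg (fun w _ => by positivity) y) e]
  refine Finset.sum_le_sum fun i _ => ?_
  by_cases hy : y ∈ O i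
  · rw [indicator_of_mem hy, indicator_of_mem hy]
  · rw [indicator_of_notMem hy, indicator_of_notMem hy, zero_mul, ENNReal.ofReal_zero]

end Vale.Agent.P272.K
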