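import Vale.Agent.P272.F.K.Ov
import Vale.Agent.P272.F.K.Nq

/-! P272 K/Dd (auxiliary names start with `ddx_`; overview in `notes/P272K.md`).

The defect of a family with small norm on the overlaps. For `i = j` the defect vanishes
(`Λ.one`, `nq_zero`); for `i ≠ j` use `nq_tri` (with `f = F j ∘ symm`, continuous on `ov i j`) and
`Λ.cv i j (F i)`, so each term is at most `4 D`. -/

open Metric Set Filter Topology MeasureTheory
open scoped ContDiff ENNReal ComplexConjugate

noncomputable section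

namespace Vale.Agent.P272.K

variable {n : ℕ} {X : Type} [TopologicalSpace X]

theorem ddx_term {C : Cv n X} {κ : ℝ} (Λ : Lb C κ) {F : Fin C.N → X → ℂ}
    (hF : ∀ i, C.Hol i (F i)) {D : ℝ≥0∞}
    (h : ∀ i j, i ≠ j → nq (Λ.φ j) (C.ov i j) (F j ∘ (C.e j).symm) ≤ D) (i j : Fin C.N) :
    nq (Λ.φ j) (C.ov i j) (Λ.u F i j ∘ (C.e j).symm) ≤ 4 * D := by
  have hS := (ov_open C i j).measurableSet
  by_cases hij : i = j
  · subst hij
    rw [nq_zero hS]
    · exact zero_le
    · intro y hy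
      simp only [Function.comp, Lb.u]
      rw [Λ.one i _ hy.2, one_mul, sub_self]
  · have h1 : nq (Λ.φ j) (C.ov i j) (Λ.u F i j ∘ (C.e j).symm) ≤
        2 * nq (Λ.φ j) (C.ov i j) (F j ∘ (C.e j).symm) +
          2 * nq (Λ.φ j) (C.ov i j) ((fun x => Λ.t i j x * F i x) ∘ (C.e j).symm) := by
      refine nq_tri hS ((Λ.sm j).continuousOn.mono inter_subset_left)
        ((hF j).continuousOn.mono inter_subset_left) fun y _ => ?_
      simp only [Function.comp, Lb.u]
      rw [add_comm]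
      exact norm_sub_le _ _
    have h2 := (Λ.cv i j (F i)).trans (h j i (Ne.symm hij))
    have h3 := h i j hij
    calc _ ≤ _ := h1
      _ ≤ 2 * D + 2 * D := by gcongr
      _ = 4 * D := by ring

theorem dd_le {C : Cv n X} {κ : ℝ} (Λ : Lb C κ) {F : Fin C.N → X → ℂ} (hF : ∀ i, C.Hol i (F i))
    {D : ℝ≥0∞} (h : ∀ i j, i ≠ j → nq (Λ.φ j) (C.ov i j) (F j ∘ (C.e j).symm) ≤ D) :
    Λ.dd F ≤ 4 * (C.N : ℝ≥0∞) ^ 2 * D := by
  have h1 : Λ.dd F ≤ ∑ _j : Fin C.N, ∑ _i : Fin C.N, 4 * D :=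
    Finset.sum_le_sum fun j _ => Finset.sum_le_sum fun i _ => ddx_term Λ hF h i j
  refine h1.trans (le_of_eq ?_)
  simp only [Finset.sum_const, Finset.card_univ, Fintype.card_fin, nsmul_eq_mul]
  ring

end Vale.Agent.P272.K
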