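import Vale.Agent.P272.F.Defs

/-! P272 block K (Kodaira embedding): definitions, no task here. Overview in `notes/P272K.md`. -/

open Metric Set Filter Topology MeasureTheory
open scoped ContDiff ENNReal

noncomputable section

namespace Vale.Agent.P272.K

variable {n : ℕ}

/-- Lebesgue measure on the model space. -/
def lam (n : ℕ) : Measure (E n) := (volume : Measure (Fin n → ℂ)).map (WithLp.toLp 2)

/-- The antilinear part of the real derivative, applied to `a`. -/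
def dbn (g : E n → ℂ) (y a : E n) : ℂ :=
  (fderiv ℝ g y a + Complex.I * fderiv ℝ g y (Complex.I • a)) / 2

/-- The weighted square norm. -/
def nq (φ : E n → ℝ) (S : Set (E n)) (f : E n → ℂ) : ℝ≥0∞ :=
  ∫⁻ y in S, ENNReal.ofReal (‖f y‖ ^ 2 * Real.exp (-φ y)) ∂lam n

/-- The constant of the mean value inequality. -/
def mv (n : ℕ) (ρ : ℝ) : ℝ := (volume (ball (0 : Fin n → ℂ) (ρ / (n + 1)))).toReal

/-- A finite cover by coordinate balls with a partition of unity. -/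
structure Cv (n : ℕ) (X : Type) [TopologicalSpace X] where
  N : ℕ
  e : Fin N → OpenPartialHomeomorph X (E n)
  c : Fin N → E n
  r : Fin N → ℝ
  sub : ∀ i, closedBall (c i) (r i) ⊆ (e i).target
  an : ∀ i j x, x ∈ (e i).source → x ∈ (e j).source → AnalyticAt ℂ (e i ∘ (e j).symm) (e j x)
  χ : Fin N → X → ℝ
  nn : ∀ i x, 0 ≤ χ i x
  sum : ∀ x, ∑ i, χ i x = 1
  supp : ∀ i x, ¬ (x ∈ (e i).source ∧ e i x ∈ ball (c i) (r i)) → χ i =ᶠ[𝓝 x] 0
  sm : ∀ i j, ContDiffOn ℝ ∞ (χ i ∘ (e j).symm) (ball (c j) (r j))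
  B : ℝ
  bd : ∀ i j, ∀ y ∈ ball (c j) (r j), ‖fderiv ℝ (χ i ∘ (e j).symm) y‖ ≤ B

variable {X : Type} [TopologicalSpace X]

namespace Cv

variable (C : Cv n X)

/-- The coordinate ball. -/
def bl (i : Fin C.N) : Set (E n) := ball (C.c i) (C.r i)

/-- The open set of the cover. -/
def U (i : Fin C.N) : Set X := {x | x ∈ (C.e i).source ∧ C.e i x ∈ ball (C.c i) (C.r i)}

/-- The overlap with `U i` read in the chart `j`. -/
def ov (i j : Fin C.N) : Set (E n) := C.bl j ∩ (C.e j).symm ⁻¹' C.U i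

/-- Holomorphic on `U j`. -/
def Hol (j : Fin C.N) (f : X → ℂ) : Prop := DifferentiableOn ℂ (f ∘ (C.e j).symm) (C.bl j)

end Cv

/-- A line bundle on the cover with weights of curvature at least `κ`. -/
structure Lb (C : Cv n X) (κ : ℝ) where
  t : Fin C.N → Fin C.N → X → ℂ
  hol : ∀ i j, DifferentiableOn ℂ (t i j ∘ (C.e j).symm) (C.ov i j)
  coc : ∀ i j k x, x ∈ C.U i → x ∈ C.U j → x ∈ C.U k → t i j x * t j k x = t i k x
  one : ∀ i x, x ∈ C.U i → t i i x = 1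
  φ : Fin C.N → E n → ℝ
  sm : ∀ i, ContDiffOn ℝ ∞ (φ i) (C.bl i)
  lev : ∀ i, ∀ y ∈ C.bl i, ∀ a, κ * ‖a‖ ^ 2 ≤ levi (φ i) y a
  cv : ∀ i j (f : X → ℂ), nq (φ j) (C.ov i j) ((fun x => t i j x * f x) ∘ (C.e j).symm) ≤
    nq (φ i) (C.ov j i) (f ∘ (C.e i).symm)

namespace Lb

variable {C : Cv n X} {κ : ℝ} (Λ : Lb C κ)

/-- The norm on `U j`. -/
def nm (j : Fin C.N) (f : X → ℂ) : ℝ≥0∞ := nq (Λ.φ j) (C.bl j) (f ∘ (C.e j).symm)

/-- The defect of the family `F` on an overlap. -/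
def u (F : Fin C.N → X → ℂ) (i j : Fin C.N) (x : X) : ℂ := Λ.t i j x * F i x - F j x

/-- The defect on `U j`. -/
def dj (F : Fin C.N → X → ℂ) (j : Fin C.N) : ℝ≥0∞ :=
  ∑ i, nq (Λ.φ j) (C.ov i j) (Λ.u F i j ∘ (C.e j).symm)

/-- The total defect. -/
def dd (F : Fin C.N → X → ℂ) : ℝ≥0∞ := ∑ j, Λ.dj F j

/-- The smooth correction. -/
def g (F : Fin C.N → X → ℂ) (j : Fin C.N) (x : X) : ℂ := ∑ i, (C.χ i x : ℂ) * Λ.u F i j x

end Lb

variable {A : Atl n X}

/-- The cover uses the charts `k i` of the atlas. -/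
def Cv.On (C : Cv n X) (A : Atl n X) (k : Fin C.N → Fin A.N) : Prop := ∀ i, C.e i = A.e (k i)

/-- The Jacobian determinant of the change from chart `k` to chart `j`. -/
def dt (A : Atl n X) (j k : Fin A.N) (x : X) : ℂ := (A.tr j k x).det

/-- The transition functions of `m K` in the frames `exp (m Q i) dz ^ m`. -/
def tw {C : Cv n X} (A : Atl n X) (k : Fin C.N → Fin A.N) (Q : Fin C.N → E n → ℂ) (m : ℕ)
    (i j : Fin C.N) (x : X) : ℂ :=
  dt A (k i) (k j) x ^ m * Complex.exp (m * Q i (C.e i x) - m * Q j (C.e j x))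

/-- The weights of `m K` in these frames. -/
def ww {C : Cv n X} (v : A.LV) (k : Fin C.N → Fin A.N) (Q : Fin C.N → E n → ℂ) (m : ℕ)
    (i : Fin C.N) (y : E n) : ℝ := ((m : ℝ) - 1) * v.l (k i) y - 2 * m * (Q i y).re

/-- The centre of `p` in its chosen chart. -/
def ct (A : Atl n X) (p : X) : E n := A.e (A.ch p) p

variable {m : ℕ} {ι : Type}

/-- No common zero at `p`, read in the chart `j`. -/
def Nz (σ : ι → A.Sec m) (j : Fin A.N) (p : X) : Prop := ∃ i, (σ i).s j (A.e j p) ≠ 0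

/-- Immersive at `p`, read in the chart `j`. -/
def Im (σ : ι → A.Sec m) (j : Fin A.N) (p : X) : Prop :=
  ∀ (a : E n) (c : ℂ), (∀ i, fderiv ℂ ((σ i).s j) (A.e j p) a = c * (σ i).s j (A.e j p)) → a = 0

/-- The points `p`, `q` are separated, read in the charts `j`, `k`. -/
def Ij (σ : ι → A.Sec m) (j k : Fin A.N) (p q : X) : Prop :=
  ∀ c : ℂ, (∀ i, (σ i).s j (A.e j p) = c * (σ i).s k (A.e k q)) → p = q

/-- The family `σ` works at the pair `(p, q)`, in all charts. -/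
def Gd (σ : ι → A.Sec m) (p q : X) : Prop :=
  ∀ j k, p ∈ (A.e j).source → q ∈ (A.e k).source → Nz σ j p ∧ Ij σ j k p q ∧ (p = q → Im σ j p)

/-- Near the pair `(p, q)` finite families work in all degrees `m * k`. -/
def Lc (A : Atl n X) (p q : X) : Prop :=
  ∃ m : ℕ, 1 ≤ m ∧ ∃ W ∈ 𝓝 (p, q), ∀ k : ℕ, 1 ≤ k →
    ∃ (a : ℕ) (σ : Fin a → A.Sec (m * k)), ∀ z ∈ W, Gd σ z.1 z.2

/-- Positive curvature. -/
def Ps (v : A.LV) : Prop := ∀ j, ∀ y ∈ (A.e j).target, ∀ a, a ≠ 0 → 0 < levi (v.l j) y a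

end Vale.Agent.P272.K
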