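import Vale.Agent.P272.F.K.Defs

/-! P272 K/Flat (auxiliary names start with `flatx_`; overview in `notes/P272K.md`).

A map close to the identity. `H y = toLp 2 (fun i => g i y / g₀ y) - (y - y₀)` is holomorphic on
`ball y₀ ρ` with `|H i| ≤ 2 ε / (1 - ε) ≤ 4 ε`, `‖H‖ ≤ 4 (n + 1) ε ≤ ρ / 4` (the Euclidean norm is at most
the sum of the coordinates). `P278.osg2_cauchy` with `t = ρ / 2` gives `‖fderiv H y‖ ≤ 1 / 2` on
`ball y₀ (ρ / 2)`; `Convex.norm_image_sub_le_of_norm_fderiv_le` gives injectivity. -/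

open Metric Set Filter Topology MeasureTheory
open scoped ContDiff ENNReal ComplexConjugate

noncomputable section

namespace Vale.Agent.P272.K

variable {n : ℕ} {X : Type} [TopologicalSpace X]

theorem flatx_norm {v : E n} {c : ℝ} (hc : 0 ≤ c) (h : ∀ i, ‖v i‖ ≤ c) : ‖v‖ ≤ (n + 1) * c := by
  rw [EuclideanSpace.norm_eq]
  refine Real.sqrt_le_iff.mpr ⟨by positivity, ?_⟩
  have h1 : ∑ i, ‖v i‖ ^ 2 ≤ ∑ _i : Fin n, c ^ 2 :=
    Finset.sum_le_sum fun i _ => pow_le_pow_left₀ (norm_nonneg _) (h i) 2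
  rw [Finset.sum_const, Finset.card_univ, Fintype.card_fin, nsmul_eq_mul] at h1
  have hn : (0 : ℝ) ≤ n := Nat.cast_nonneg n
  have h2 : 0 ≤ c ^ 2 * ((n : ℝ) ^ 2 + n + 1) := by positivity
  nlinarith

theorem flatx_coord {a b d : ℂ} {ε : ℝ} (hε : ε ≤ 1 / 2) (ha : ‖a - 1‖ ≤ ε) (hb : ‖b - d‖ ≤ ε)
    (hd : ‖d‖ ≤ 1) : a ≠ 0 ∧ ‖b / a - d‖ ≤ 4 * ε := by
  have h1 : 1 / 2 ≤ ‖a‖ := by
    have := norm_sub_norm_le (1 : ℂ) a
    rw [norm_one, norm_sub_rev] at this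
    linarith
  have h0 : a ≠ 0 := norm_pos_iff.mp (by linarith)
  have hε0 : 0 ≤ ε := (norm_nonneg _).trans ha
  refine ⟨h0, ?_⟩
  have e : b / a - d = ((b - d) - d * (a - 1)) / a := by
    field_simp
    ring
  have h2 : ‖(b - d) - d * (a - 1)‖ ≤ 2 * ε := by
    refine (norm_sub_le _ _).trans ?_
    rw [norm_mul]
    have := mul_le_mul hd ha (norm_nonneg _) zero_le_one
    linarith
  rw [e, norm_div, div_le_iff₀ (by linarith)]
  nlinarith

theorem flat_inj {y₀ : E n} {ρ ε : ℝ} (hρ : 0 < ρ) (hρ1 : ρ ≤ 1) (hε : 16 * (n + 1) * ε ≤ ρ)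
    {g₀ : E n → ℂ} {g : Fin n → E n → ℂ} (h₀ : DifferentiableOn ℂ g₀ (ball y₀ ρ))
    (h₁ : ∀ i, DifferentiableOn ℂ (g i) (ball y₀ ρ)) (b₀ : ∀ y ∈ ball y₀ ρ, ‖g₀ y - 1‖ ≤ ε)
    (b₁ : ∀ i, ∀ y ∈ ball y₀ ρ, ‖g i y - (y i - y₀ i)‖ ≤ ε) :
    (∀ y ∈ ball y₀ ρ, g₀ y ≠ 0) ∧
      (∀ y ∈ ball y₀ (ρ / 2), ∀ y' ∈ ball y₀ (ρ / 2),
        (∀ i, g i y / g₀ y = g i y' / g₀ y') → y = y') ∧
      ∀ y ∈ ball y₀ (ρ / 2), ∀ a,
        (∀ i, fderiv ℂ (fun w => g i w / g₀ w) y a = 0) → a = 0 := by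
  have hε0 : 0 ≤ ε := (norm_nonneg _).trans (b₀ y₀ (mem_ball_self hρ))
  have hn : (0 : ℝ) ≤ n := Nat.cast_nonneg n
  have hε1 : ε ≤ 1 / 2 := by nlinarith [mul_nonneg hn hε0]
  have hd : ∀ y ∈ ball y₀ ρ, ∀ i, ‖y i - y₀ i‖ ≤ 1 := fun y hy i =>
    (PiLp.norm_apply_le (y - y₀) i).trans ((mem_ball_iff_norm.mp hy).le.trans hρ1)
  have h0 : ∀ y ∈ ball y₀ ρ, g₀ y ≠ 0 := fun y hy =>
    (flatx_coord (b := 0) (d := 0) hε1 (b₀ y hy) (by simpa using hε0) (by simp)).1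
  obtain ⟨H, hH⟩ : ∃ H : E n → E n, ∀ y i, H y i = g i y / g₀ y - (y i - y₀ i) :=
    ⟨fun y => WithLp.toLp 2 fun i => g i y / g₀ y - (y i - y₀ i), fun _ _ => rfl⟩
  have hHd : DifferentiableOn ℂ H (ball y₀ ρ) := by
    refine differentiableOn_euclidean.mpr fun i => ?_
    simp only [hH, div_eq_mul_inv]
    exact ((h₁ i).mul (h₀.inv h0)).sub
      (((EuclideanSpace.proj (𝕜 := ℂ) i).differentiable.differentiableOn).sub_const _)
  have hHb : ∀ y ∈ ball y₀ ρ, ‖H y‖ ≤ ρ / 4 := fun y hy => by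
    have := flatx_norm (v := H y) (c := 4 * ε) (by positivity) fun i => by
      rw [hH]
      exact (flatx_coord hε1 (b₀ y hy) (b₁ i y hy) (hd y hy i)).2
    linarith
  have hsub : ball y₀ (ρ / 2) ⊆ ball y₀ ρ := ball_subset_ball (by linarith)
  have hat : ∀ y ∈ ball y₀ (ρ / 2), DifferentiableAt ℂ H y := fun y hy =>
    hHd.differentiableAt (isOpen_ball.mem_nhds (hsub hy))
  have hD : ∀ y ∈ ball y₀ (ρ / 2), ‖fderiv ℂ H y‖ ≤ 1 / 2 := fun y hy => by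
    have hs : closedBall y (ρ / 2) ⊆ ball y₀ ρ :=
      closedBall_subset_ball' (by linarith [mem_ball.mp hy])
    have := P278.osg2_cauchy isOpen_ball hHd (half_pos hρ) hs fun z hz => hHb z (hs hz)
    refine this.trans_eq ?_
    field_simp
    norm_num
  refine ⟨h0, fun y hy y' hy' he => ?_, fun y hy a ha => ?_⟩
  · have h2 := (convex_ball y₀ (ρ / 2)).norm_image_sub_le_of_norm_fderiv_le hat hD hy hy'
    have h3 : H y' - H y = y - y' := by
      ext i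
      rw [PiLp.sub_apply, PiLp.sub_apply, hH, hH, he i]
      ring
    rw [h3, norm_sub_rev y' y] at h2
    exact sub_eq_zero.mp (norm_le_zero_iff.mp (by linarith))
  · have h3 : fderiv ℂ H y a = -a := by
      ext i
      have e1 : (fun w => g i w / g₀ w) = fun w => H w i + (w i - y₀ i) := funext fun w => by
        rw [hH]
        ring
      have e2 : HasFDerivAt (fun w => H w i + (w i - y₀ i))
          ((EuclideanSpace.proj (𝕜 := ℂ) i).comp (fderiv ℂ H y) + EuclideanSpace.proj (𝕜 := ℂ) i) y :=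
        ((EuclideanSpace.proj (𝕜 := ℂ) i).hasFDerivAt.comp y (hat y hy).hasFDerivAt).add
          ((EuclideanSpace.proj (𝕜 := ℂ) i).hasFDerivAt.sub_const _)
      have e3 := ha i
      rw [e1, e2.fderiv] at e3
      exact eq_neg_of_add_eq_zero_left e3
    have h4 := (fderiv ℂ H y).le_of_opNorm_le (hD y hy) a
    rw [h3, norm_neg] at h4
    exact norm_le_zero_iff.mp (by linarith)

end Vale.Agent.P272.K
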