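import Vale.Agent.P272.F.K.Lev
import Vale.Agent.P271.H.Nbhd

/-! P272 K/Stein (auxiliary names start with `steinx_`; overview in `notes/P272K.md`).

Euclidean balls are Stein. Copy the proof of `P271.EtDom.stein_nhds` (file `P271/H/Nbhd`):
`q w = ∑ j, ‖w j - c j‖ ^ 2 = ‖w - c‖ ^ 2` (`EuclideanSpace.norm_sq_eq`), exhaustion
`(log (1 + r ^ 2) - log (1 + q))⁻¹`, `nbhd_chi`, `psh_log_sq`; sublevel sets are closed subsets of the
compact `closedBall c r`. For `r ≤ 0` the ball is empty. -/

open Metric Set Filter Topology MeasureTheory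
open scoped ContDiff ENNReal ComplexConjugate

noncomputable section

namespace Vale.Agent.P272.K

variable {n : ℕ} {X : Type} [TopologicalSpace X]

theorem stein_ball (c : E n) (r : ℝ) : (ed n).Stein (ball c r) := by
  have hq : ∀ w : E n, ∑ j, ‖(ed n).π w j - c j‖ ^ 2 = ‖w - c‖ ^ 2 := fun w => by
    rw [EuclideanSpace.norm_sq_eq]
    rfl
  have hlt : ∀ w ∈ ball c r, Real.log (1 + ‖w - c‖ ^ 2) < Real.log (1 + r ^ 2) := fun w hw =>
    Real.log_lt_log (by positivity) (by
      linarith [pow_lt_pow_left₀ (mem_ball_iff_norm.1 hw) (norm_nonneg _) two_ne_zero])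
  refine ⟨isOpen_ball, fun w => (Real.log (1 + r ^ 2) - Real.log (1 + ‖w - c‖ ^ 2))⁻¹,
    fun w hw => ?_, fun τ => ?_⟩
  · have hu : (ed n).Psh (fun w => Real.log (1 + ‖w - c‖ ^ 2)) w := by
      simp only [← hq]
      exact P271.EtDom.psh_log_sq (s := fun j w => (ed n).π w j - c j)
        (fun j => (P271.EtDom.holAt_π j).sub (P271.EtDom.holAt_const _)) one_pos
    obtain ⟨h1, h2, h3⟩ := P271.EtDom.nbhd_chi (hlt w hw)
    exact hu.comp h1 h2 h3
  · have hl : Continuous fun w : E n => Real.log (1 + ‖w - c‖ ^ 2) :=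
      Continuous.log (by fun_prop) fun w => by positivity
    have hC : IsClosed {w : E n | 1 ≤ τ * (Real.log (1 + r ^ 2) - Real.log (1 + ‖w - c‖ ^ 2))} :=
      isClosed_le continuous_const (continuous_const.mul (continuous_const.sub hl))
    have e : {w | w ∈ ball c r ∧ (Real.log (1 + r ^ 2) - Real.log (1 + ‖w - c‖ ^ 2))⁻¹ ≤ τ} =
        closedBall c r ∩
          {w : E n | 1 ≤ τ * (Real.log (1 + r ^ 2) - Real.log (1 + ‖w - c‖ ^ 2))} := by
      ext w
      constructor
      · rintro ⟨h2, h3⟩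
        exact ⟨ball_subset_closedBall h2, (inv_le_iff_one_le_mul₀ (sub_pos.2 (hlt w h2))).1 h3⟩
      · rintro ⟨h2, h3⟩
        have h4 : w ∈ ball c r := by
          refine mem_ball_iff_norm.2 (lt_of_le_of_ne (mem_closedBall_iff_norm.1 h2) fun h => ?_)
          rw [mem_ofPred_eq, h, sub_self, mul_zero] at h3
          linarith
        exact ⟨h4, (inv_le_iff_one_le_mul₀ (sub_pos.2 (hlt w h4))).2 h3⟩
    rw [e]
    exact (isCompact_closedBall c r).inter_right hC

end Vale.Agent.P272.K
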