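import Vale.Agent.P272.F.K.Lev2
import Vale.Agent.P272.F.K.Stein

/-! P272 K/Horm (auxiliary names start with `hormx_`; overview in `notes/P272K.md`).

Hoermander on a ball: `P271.EtDom.hormander` with constant sequences `φ`, `M / κ`, the bridges
`ed_smAt`, `ed_holAt`, `ed_db`, `ed_levi`, and `lintegral_const_mul'` for the factor `1 / κ`. -/

open Metric Set Filter Topology MeasureTheory
open scoped ContDiff ENNReal ComplexConjugate

noncomputable section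

namespace Vale.Agent.P272.K

variable {n : ℕ} {X : Type} [TopologicalSpace X]

theorem horm_ball {c : E n} {r κ : ℝ} (hκ : 0 < κ) {φ M : E n → ℝ} {g : E n → ℂ}
    (hφ : ContDiffOn ℝ ∞ φ (ball c r)) (hl : ∀ y ∈ ball c r, ∀ a, κ * ‖a‖ ^ 2 ≤ levi φ y a)
    (hg : ContDiffOn ℝ ∞ g (ball c r)) (hM0 : ∀ y ∈ ball c r, 0 ≤ M y)
    (hM : ∀ y ∈ ball c r, ∀ a, ‖dbn g y a‖ ^ 2 ≤ M y * ‖a‖ ^ 2) (hg2 : nq φ (ball c r) g ≠ ⊤)
    (hA : ∫⁻ y in ball c r, ENNReal.ofReal (M y * Real.exp (-φ y)) ∂lam n ≠ ⊤) :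
    ∃ F : E n → ℂ, DifferentiableOn ℂ F (ball c r) ∧ nq φ (ball c r) (g - F) ≤
      ENNReal.ofReal (3 / κ) *
        ∫⁻ y in ball c r, ENNReal.ofReal (M y * Real.exp (-φ y)) ∂lam n := by
  have hn : ∀ y ∈ ball c r, ball c r ∈ 𝓝 y := fun y hy => isOpen_ball.mem_nhds hy
  have e : ∫⁻ y in ball c r, ENNReal.ofReal (κ⁻¹ * M y * Real.exp (-φ y)) ∂lam n =
      ENNReal.ofReal κ⁻¹ * ∫⁻ y in ball c r, ENNReal.ofReal (M y * Real.exp (-φ y)) ∂lam n := by
    rw [← lintegral_const_mul' _ _ ENNReal.ofReal_ne_top]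
    refine lintegral_congr fun y => ?_
    rw [mul_assoc, ENNReal.ofReal_mul (inv_nonneg.2 hκ.le)]
  obtain ⟨F, h1, h2⟩ := P271.EtDom.hormander (D := ed n) (stein_ball c r) (g := g)
    (fun z hz => (ed_smAt g z).2 (hg.contDiffAt (hn z hz))) (φ := fun _ => φ)
    (M := fun _ y => κ⁻¹ * M y)
    (fun _ z hz => ⟨(ed_smAt φ z).2 (hφ.contDiffAt (hn z hz)), fun v => by
      rw [ed_levi (hφ.contDiffAt (hn z hz))]
      exact le_trans (by positivity) (hl z hz _)⟩)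
    (fun _ _ => antitone_const) (fun _ z hz => mul_nonneg (inv_nonneg.2 hκ.le) (hM0 z hz))
    (fun _ z hz v => by
      rw [ed_db, ed_levi (hφ.contDiffAt (hn z hz))]
      refine (hM z hz _).trans (le_trans (le_of_eq ?_)
        (mul_le_mul_of_nonneg_left (hl z hz _) (mul_nonneg (inv_nonneg.2 hκ.le) (hM0 z hz))))
      field_simp)
    (fun _ => hg2) (fun _ => e.le) (ENNReal.mul_ne_top ENNReal.ofReal_ne_top hA)
  refine ⟨F, fun z hz => ((ed_holAt F z).1 (h1 z hz)).differentiableAt.differentiableWithinAt,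
    (h2 0).trans (le_of_eq ?_)⟩
  rw [← mul_assoc, div_eq_mul_inv, ENNReal.ofReal_mul (by norm_num), ENNReal.ofReal_ofNat]

end Vale.Agent.P272.K
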