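import Vale.Agent.P272.F.K.StepB

/-! P272 K/Iter (auxiliary names start with `iterx_`; overview in `notes/P272K.md`).

Iteration of `step`: choose `Φ F = H` for admissible `F`, put `G 0 = F`, `G (k + 1) = G k + Φ (G k)`
(recursion in the subtype of admissible families, or `choose!`). -/

open Metric Set Filter Topology MeasureTheory
open scoped ContDiff ENNReal ComplexConjugate

noncomputable section

namespace Vale.Agent.P272.K

variable {n : ℕ} {X : Type} [TopologicalSpace X]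

variable {C : Cv n X} {κ : ℝ} (Λ : Lb C κ) {F : Fin C.N → X → ℂ}

theorem iter (hκ : 0 < κ) (hN : 48 * (C.N : ℝ) ^ 2 * C.B ^ 2 ≤ κ) (hF : ∀ i, C.Hol i (F i))
    {D : ℝ} (hD : 0 ≤ D) (hd : Λ.dd F ≤ ENNReal.ofReal D) :
    ∃ H : ℕ → Fin C.N → X → ℂ, (∀ k i, C.Hol i (H k i)) ∧
      (∀ k j, Λ.nm j (H k j) ≤ ENNReal.ofReal (4 * D * (1 / 4) ^ k)) ∧
      ∀ k, Λ.dd (F + ∑ l ∈ Finset.range k, H l) ≤ ENNReal.ofReal (D * (1 / 4) ^ k) := by
  have hs : ∀ G : Fin C.N → X → ℂ, (∀ i, C.Hol i (G i)) ∧ Λ.dd G ≠ ⊤ →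
      ∃ H : Fin C.N → X → ℂ, (∀ i, C.Hol i (H i)) ∧
        (∀ j, Λ.nm j (H j) ≤ 4 * Λ.dd G) ∧ 4 * Λ.dd (G + H) ≤ Λ.dd G :=
    fun G hG => step Λ hκ hN hG.1 hG.2
  choose! Φ hΦ using hs
  let G : ℕ → Fin C.N → X → ℂ := fun k => Nat.rec F (fun _ G => G + Φ G) k
  have hG0 : G 0 = F := rfl
  have hGs : ∀ k, G (k + 1) = G k + Φ (G k) := fun k => rfl
  have h4 : (4 : ℝ≥0∞) = ENNReal.ofReal 4 := by simp
  have key : ∀ k, (∀ i, C.Hol i (G k i)) ∧ Λ.dd (G k) ≤ ENNReal.ofReal (D * (1 / 4) ^ k) := by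
    intro k
    induction k with
    | zero => exact ⟨hF, by simpa [hG0] using hd⟩
    | succ k ih =>
      obtain ⟨h1, -, h3⟩ := hΦ (G k) ⟨ih.1, ne_top_of_le_ne_top ENNReal.ofReal_ne_top ih.2⟩
      rw [hGs]
      refine ⟨fun i => DifferentiableOn.add (ih.1 i) (h1 i), ?_⟩
      have e : ENNReal.ofReal (D * (1 / 4) ^ k) = 4 * ENNReal.ofReal (D * (1 / 4) ^ (k + 1)) := by
        rw [h4, ← ENNReal.ofReal_mul (by norm_num)]
        congr 1
        ring
      have h5 := h3.trans ih.2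
      rw [e] at h5
      exact (ENNReal.mul_le_mul_iff_right (by norm_num) (by norm_num)).1 h5
  have hk : ∀ k, (∀ i, C.Hol i (G k i)) ∧ Λ.dd (G k) ≠ ⊤ := fun k =>
    ⟨(key k).1, ne_top_of_le_ne_top ENNReal.ofReal_ne_top (key k).2⟩
  have hsum : ∀ k, F + ∑ l ∈ Finset.range k, Φ (G l) = G k := by
    intro k
    induction k with
    | zero => simp [hG0]
    | succ k ih => rw [Finset.sum_range_succ, ← add_assoc, ih, hGs]
  refine ⟨fun k => Φ (G k), fun k => (hΦ _ (hk k)).1, fun k j => ?_, fun k => ?_⟩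
  · refine ((hΦ _ (hk k)).2.1 j).trans ?_
    rw [mul_assoc, ENNReal.ofReal_mul (by norm_num), ← h4]
    exact mul_le_mul_right (key k).2 _
  · rw [hsum]
    exact (key k).2

end Vale.Agent.P272.K
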