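import Vale.Agent.P272.F.K.Defs
import Vale.Agent.P272.Lin

/-! P272 K/Jac (auxiliary names start with `jacx_`; overview in `notes/P272K.md`).

Jacobians of the transition maps. `an_tr`: `P278.osgood_at` (`A.hol` holds at all points near
`e k x`). `tr_coc`: chain rule, `e i ∘ symm k = (e i ∘ symm j) ∘ (e j ∘ symm k)` near `e k x`.
`dt_an`: `dt A j k ∘ symm l = (det ∘ fderiv ℂ (e j ∘ symm k)) ∘ (e k ∘ symm l)` by `rfl`,
`AnalyticAt.fderiv`, and `det_an` (`det` is a polynomial in the matrix entries: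
`LinearMap.det_toMatrix`, `Matrix.det_apply`, `Finset.analyticAt_fun_sum`, `..._prod`). -/

open Metric Set Filter Topology MeasureTheory
open scoped ContDiff ENNReal ComplexConjugate

noncomputable section

namespace Vale.Agent.P272.K

variable {n : ℕ} {X : Type} [TopologicalSpace X]

variable {A : Atl n X} {i j k l : Fin A.N} {x : X}

theorem jacx_ev (hj : x ∈ (A.e j).source) (hk : x ∈ (A.e k).source) :
    ∀ᶠ y in 𝓝 (A.e k x), y ∈ (A.e k).target ∧ (A.e k).symm y ∈ (A.e j).source := by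
  have ht : A.e k x ∈ (A.e k).target := (A.e k).map_source hk
  have hj' : (A.e k).symm (A.e k x) ∈ (A.e j).source := by
    rw [(A.e k).left_inv hk]
    exact hj
  exact Filter.Eventually.and ((A.e k).open_target.mem_nhds ht)
    (((A.e k).continuousAt_symm ht).eventually ((A.e j).open_source.mem_nhds hj'))

theorem an_tr (hj : x ∈ (A.e j).source) (hk : x ∈ (A.e k).source) :
    AnalyticAt ℂ (A.e j ∘ (A.e k).symm) (A.e k x) := by
  refine P278.osgood_at ?_
  filter_upwards [jacx_ev hj hk] with y hy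
  have h3 := A.hol j k ((A.e k).symm y) hy.2 ((A.e k).map_target hy.1)
  rwa [(A.e k).right_inv hy.1] at h3

theorem tr_coc (hi : x ∈ (A.e i).source) (hj : x ∈ (A.e j).source) (hk : x ∈ (A.e k).source) :
    A.tr i j x * A.tr j k x = A.tr i k x := by
  have h1 : (A.e i ∘ (A.e k).symm) =ᶠ[𝓝 (A.e k x)]
      ((A.e i ∘ (A.e j).symm) ∘ (A.e j ∘ (A.e k).symm)) := by
    filter_upwards [jacx_ev hj hk] with y hy
    simp only [Function.comp_apply]
    rw [(A.e j).left_inv hy.2]
  have h2 : (A.e j ∘ (A.e k).symm) (A.e k x) = A.e j x := by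
    rw [Function.comp_apply, (A.e k).left_inv hk]
  have h3 : DifferentiableAt ℂ (A.e i ∘ (A.e j).symm) ((A.e j ∘ (A.e k).symm) (A.e k x)) := by
    rw [h2]
    exact A.hol i j x hi hj
  rw [Atl.tr, Atl.tr, Atl.tr, h1.fderiv_eq, fderiv_comp _ h3 (A.hol j k x hj hk), h2]
  rfl

theorem tr_one (hi : x ∈ (A.e i).source) : A.tr i i x = 1 := by
  have h2 : (A.e i ∘ (A.e i).symm) =ᶠ[𝓝 (A.e i x)] id := by
    filter_upwards [jacx_ev hi hi] with y hy
    exact (A.e i).right_inv hy.1
  rw [Atl.tr, h2.fderiv_eq, fderiv_id]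
  rfl

theorem dt_coc (hi : x ∈ (A.e i).source) (hj : x ∈ (A.e j).source) (hk : x ∈ (A.e k).source) :
    dt A i j x * dt A j k x = dt A i k x := by
  rw [dt, dt, dt, ← det_mul', tr_coc hi hj hk]

theorem dt_one (hi : x ∈ (A.e i).source) : dt A i i x = 1 := by
  rw [dt, tr_one hi]
  exact map_one (LinearMap.det (A := ℂ) (M := E n))

theorem dt_ne (hi : x ∈ (A.e i).source) (hj : x ∈ (A.e j).source) : dt A i j x ≠ 0 := by
  intro h
  have h1 := dt_coc hi hj hi
  rw [h, zero_mul, dt_one hi] at h1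
  exact zero_ne_one h1

theorem det_an (T : L n) : AnalyticAt ℂ (fun S : L n => S.det) T := by
  exact analyticAt_det T

theorem dt_an (hj : x ∈ (A.e j).source) (hk : x ∈ (A.e k).source) (hl : x ∈ (A.e l).source) :
    AnalyticAt ℂ (dt A j k ∘ (A.e l).symm) (A.e l x) := by
  have h1 : AnalyticAt ℂ (fun y => (fderiv ℂ (A.e j ∘ (A.e k).symm) y).det) (A.e k x) :=
    (det_an _).comp (an_tr hj hk).fderiv
  have h2 : (A.e k ∘ (A.e l).symm) (A.e l x) = A.e k x := by
    rw [Function.comp_apply, (A.e l).left_inv hl]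
  exact h1.comp_of_eq (an_tr hk hl) h2

theorem ch_mem (A : Atl n X) (p : X) : p ∈ (A.e (A.ch p)).source ∧ ‖ct A p‖ < 1 :=
  (A.cov p).choose_spec

theorem ball_ct (A : Atl n X) (p : X) {ρ : ℝ} (hρ : ρ ≤ 1) :
    closedBall (ct A p) ρ ⊆ (A.e (A.ch p)).target := by
  refine Subset.trans (closedBall_subset_closedBall' ?_) (A.tgt _)
  rw [dist_zero_right]
  linarith [(ch_mem A p).2]

end Vale.Agent.P272.K
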