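import Vale.Agent.P272.F.K.Defs
import Vale.Agent.P271.H.Horm

/-! P272 K/Lev (auxiliary names start with `levx_`; overview in `notes/P272K.md`).

The model space as an etale domain of `P271`. All four bridges come from the continuous linear
equivalence `EuclideanSpace.equiv` (`ContinuousLinearEquiv.comp_right_fderiv`,
`ContinuousLinearEquiv.contDiffAt_comp_iff`-like lemmas; `(ed n).loc f z = f ∘ toLp 2` by `rfl`).
`ed_db`: the map `a ↦ dbn g z a` is additive and antilinear, expand `toLp v = ∑ v j • e j`, writing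
`v j = re + im * I` and using real linearity of the derivative. -/

open Metric Set Filter Topology MeasureTheory
open scoped ContDiff ENNReal ComplexConjugate

noncomputable section

namespace Vale.Agent.P272.K

variable {n : ℕ} {X : Type} [TopologicalSpace X]

theorem lam_apply {S : Set (E n)} (hS : MeasurableSet S) :
    lam n S = volume (WithLp.ofLp '' S : Set (Fin n → ℂ)) := by
  rw [lam, Measure.map_apply (WithLp.measurable_toLp 2 _) hS]
  congr 1
  ext w
  exact ⟨fun h => ⟨_, h, rfl⟩, by rintro ⟨y, hy, rfl⟩; exact hy⟩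

/-- The model space as an etale domain. -/
def ed (n : ℕ) : P271.EtDom n (E n) where
  π := WithLp.ofLp
  ch _ := (EuclideanSpace.equiv (Fin n) ℂ).toHomeomorph.toOpenPartialHomeomorph
  mem _ := mem_univ _
  coe _ := rfl
  ν := lam n
  ν_ch _ _ hS _ := lam_apply hS

/-- The real linear identification of the two models. -/
def levx_L (n : ℕ) : (Fin n → ℂ) ≃L[ℝ] E n :=
  (PiLp.continuousLinearEquiv 2 ℝ fun _ : Fin n => ℂ).symm

theorem lam_haar : (lam n).IsAddHaarMeasure :=
  (levx_L n).isAddHaarMeasure_map volume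

theorem ed_smAt {F : Type} [NormedAddCommGroup F] [NormedSpace ℝ F] (f : E n → F) (z : E n) :
    (ed n).SmAt f z ↔ ContDiffAt ℝ ∞ f z :=
  (levx_L n).contDiffAt_comp_iff (f := f) (x := z)

theorem ed_holAt (f : E n → ℂ) (z : E n) : (ed n).HolAt f z ↔ AnalyticAt ℂ f z := by
  refine ⟨fun h => ?_, fun h => ?_⟩
  · exact AnalyticAt.comp (g := f ∘ WithLp.toLp 2) (f := WithLp.ofLp) h
      ((EuclideanSpace.equiv (Fin n) ℂ).analyticAt z)
  · exact AnalyticAt.comp (g := f) (f := WithLp.toLp 2) (x := z.ofLp) h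
      ((EuclideanSpace.equiv (Fin n) ℂ).symm.analyticAt _)

theorem levx_fd (g : E n → ℂ) (z : E n) (w : Fin n → ℂ) :
    fderiv ℝ ((ed n).loc g z) ((ed n).π z) w = fderiv ℝ g z (WithLp.toLp 2 w) :=
  congrArg (fun T : (Fin n → ℂ) →L[ℝ] ℂ => T w)
    ((levx_L n).comp_right_fderiv (f := g) (x := z.ofLp))

theorem levx_lin (T : (Fin n → ℂ) →L[ℝ] ℂ) (v : Fin n → ℂ) :
    T v = ∑ j, ((v j).re * T (Pi.single j 1) + (v j).im * T (Pi.single j Complex.I)) := by
  conv_lhs => rw [← Finset.univ_sum_single v, map_sum]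
  refine Finset.sum_congr rfl fun j _ => ?_
  rw [← Complex.real_smul, ← Complex.real_smul, ← map_smul, ← map_smul, ← map_add,
    ← Pi.single_smul, ← Pi.single_smul, ← Pi.single_add]
  simp

theorem ed_db (g : E n → ℂ) (z : E n) (v : Fin n → ℂ) :
    ∑ j, (ed n).db j g z * conj (v j) = dbn g z (WithLp.toLp 2 v) := by
  rw [dbn, ← WithLp.toLp_smul, ← levx_fd, ← levx_fd, levx_lin _ v, levx_lin _ (Complex.I • v),
    Finset.mul_sum, ← Finset.sum_add_distrib, Finset.sum_div]
  refine Finset.sum_congr rfl fun j _ => ?_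
  have h : conj (v j) = (v j).re - (v j).im * Complex.I := Complex.ext (by simp) (by simp)
  rw [P271.EtDom.db, P271.dzb, h]
  simp only [Pi.smul_apply, smul_eq_mul, Complex.I_mul_re, Complex.I_mul_im, Complex.ofReal_neg]
  linear_combination (-((v j).im : ℂ) *
    fderiv ℝ ((ed n).loc g z) ((ed n).π z) (Pi.single j Complex.I) / 2) * Complex.I_mul_I

end Vale.Agent.P272.K
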