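import Vale.Agent.P272.F.K.Lev

/-! P272 K/Lev2 (auxiliary names start with `lev2x_`; overview in `notes/P272K.md`).

The two Levi forms agree. With `B = fderiv ℝ (fderiv ℝ u) z` one has
`d j (db k u) z = S (e j) (e k)`, `S a b = (B a b + I B a (I b) - I B (I a) b + B (I a) (I b)) / 4`;
`S` is linear in `a`, antilinear in `b`, so the double sum is `S v v`, whose real part is `levi`.
Near `z` the function `db k u` is `w ↦ (Du w (e k) + I Du w (I e k)) / 2` (as `u` is differentiable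
near `z`; use `ed_db` with `v = Pi.single k 1` or unfold directly). -/

open Metric Set Filter Topology MeasureTheory
open scoped ContDiff ENNReal ComplexConjugate

noncomputable section

namespace Vale.Agent.P272.K

variable {n : ℕ} {X : Type} [TopologicalSpace X]

theorem lev2x_db (g : E n → ℂ) (k : Fin n) :
    (ed n).db k g = fun w => dbn g w (WithLp.toLp 2 (Pi.single k 1)) := by
  funext w
  rw [← ed_db, Finset.sum_eq_single k (fun j _ hj => by simp [Pi.single_eq_of_ne hj]) (by simp)]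
  simp

theorem lev2x_d (f : E n → ℂ) (z : E n) (v : Fin n → ℂ) : ∑ j, (ed n).d j f z * v j =
    (fderiv ℝ f z (WithLp.toLp 2 v) -
      Complex.I * fderiv ℝ f z (Complex.I • WithLp.toLp 2 v)) / 2 := by
  have h1 : ∀ j, (ed n).d j f z = conj ((ed n).db j (Complex.conjCLE ∘ f) z) := fun j => by
    have e : (ed n).loc (Complex.conjCLE ∘ f) z = Complex.conjCLE ∘ (ed n).loc f z := rfl
    rw [P271.EtDom.db, P271.dzb, e, ContinuousLinearEquiv.comp_fderiv, P271.EtDom.d, P271.dz]
    simp [sub_eq_add_neg, map_ofNat]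
  have h2 := congrArg conj (ed_db (Complex.conjCLE ∘ f) z v)
  rw [dbn, ContinuousLinearEquiv.comp_fderiv, map_sum] at h2
  simp only [map_mul, Complex.conj_conj, ← h1] at h2
  rw [h2]
  simp [sub_eq_add_neg, map_ofNat]

theorem lev2x_lin (B : E n →L[ℝ] ℝ) (z c : E n) :
    dbn (Complex.ofRealCLM.comp B) z c = (B c + Complex.I * B (Complex.I • c)) / 2 := by
  rw [dbn, ContinuousLinearMap.fderiv]
  rfl

theorem lev2x_two {u : E n → ℝ} {z : E n} (hu : ContDiffAt ℝ ∞ u z) (b c : E n) :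
    fderiv ℝ (fun w => dbn (fun w => (u w : ℂ)) w c) z b =
      dbn (Complex.ofRealCLM.comp (fderiv ℝ (fderiv ℝ u) z b)) z c := by
  have h2 : ContDiffAt ℝ 2 u z := hu.of_le (by norm_cast)
  have h1 := ((h2.fderiv_right (m := 1) le_rfl).differentiableAt one_ne_zero).hasFDerivAt
  have h3 := ((2 : ℂ)⁻¹ • (Complex.ofRealCLM.comp (ContinuousLinearMap.apply ℝ ℝ c) +
    Complex.I • Complex.ofRealCLM.comp (ContinuousLinearMap.apply ℝ ℝ (Complex.I • c)) :
      (E n →L[ℝ] ℝ) →L[ℝ] ℂ)).hasFDerivAt.comp z h1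
  rw [(h3.congr_of_eventuallyEq (f₁ := fun w => dbn (fun w => (u w : ℂ)) w c) ?_).fderiv,
    lev2x_lin]
  · simp [div_eq_inv_mul, mul_add]
  · filter_upwards [h2.eventually (by simp)] with w hw
    have h4 : HasFDerivAt (fun w => (u w : ℂ)) (Complex.ofRealCLM.comp (fderiv ℝ u w)) w :=
      Complex.ofRealCLM.hasFDerivAt.comp w (hw.differentiableAt two_ne_zero).hasFDerivAt
    rw [dbn, h4.fderiv]
    simp [div_eq_inv_mul, mul_add]

theorem ed_levi {u : E n → ℝ} {z : E n} (hu : ContDiffAt ℝ ∞ u z) (v : Fin n → ℂ) :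
    (ed n).levi u z v = levi u z (WithLp.toLp 2 v) := by
  have h1 : ∀ g : E n → ℂ, ∑ k, dbn g z (WithLp.toLp 2 (Pi.single k 1)) * conj (v k) =
      dbn g z (WithLp.toLp 2 v) := fun g => by
    rw [← ed_db]
    simp only [lev2x_db]
  have h2 : ∀ k, ∑ j, (ed n).d j ((ed n).db k fun w => (u w : ℂ)) z * v j * conj (v k) =
      2⁻¹ * (dbn (Complex.ofRealCLM.comp (fderiv ℝ (fderiv ℝ u) z (WithLp.toLp 2 v))) z
        (WithLp.toLp 2 (Pi.single k 1)) * conj (v k)) - 2⁻¹ * Complex.I *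
      (dbn (Complex.ofRealCLM.comp (fderiv ℝ (fderiv ℝ u) z (Complex.I • WithLp.toLp 2 v))) z
        (WithLp.toLp 2 (Pi.single k 1)) * conj (v k)) := fun k => by
    rw [← Finset.sum_mul, lev2x_d, lev2x_db, lev2x_two hu, lev2x_two hu]
    ring
  rw [P271.EtDom.levi, Finset.sum_comm, Finset.sum_congr rfl fun k _ => h2 k,
    Finset.sum_sub_distrib, ← Finset.mul_sum, ← Finset.mul_sum, h1, h1, lev2x_lin, lev2x_lin, levi]
  simp
  ring

end Vale.Agent.P272.K
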