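import Vale.Agent.P272.F.K.Lev
import Vale.Agent.P271.H.Mean

/-! P272 K/Mean (auxiliary names start with `meanx_`; overview in `notes/P272K.md`).

Mean value inequality. `P271.mean_ball` for `H ∘ toLp 2` on the closed sup norm ball of radius
`ρ / (n + 1)`, whose image lies in the Euclidean ball of radius `ρ`; `lam` is the image of `volume`
under a measurable equivalence (`MeasurableEquiv.toLp`, `lintegral_map_equiv`). `P278.osgood` turns
`DifferentiableOn` into `AnalyticOnNhd`. In `mean_wt` use `1 ≤ exp b * exp (-φ w)`. -/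

open Metric Set Filter Topology MeasureTheory
open scoped ContDiff ENNReal ComplexConjugate

noncomputable section

namespace Vale.Agent.P272.K

variable {n : ℕ} {X : Type} [TopologicalSpace X]

theorem meanx_norm (w : Fin n → ℂ) (y : E n) :
    dist (WithLp.toLp 2 w : E n) y ≤ (n + 1) * dist w (WithLp.ofLp y) := by
  rw [EuclideanSpace.dist_eq]
  refine Real.sqrt_le_iff.2 ⟨by positivity, ?_⟩
  have h1 : ∑ i, dist ((WithLp.toLp 2 w : E n) i) (y i) ^ 2 ≤
      ∑ _i : Fin n, dist w (WithLp.ofLp y) ^ 2 :=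
    Finset.sum_le_sum fun i _ => pow_le_pow_left₀ dist_nonneg (dist_le_pi_dist w _ i) 2
  rw [Finset.sum_const, Finset.card_univ, Fintype.card_fin, nsmul_eq_mul] at h1
  refine h1.trans ?_
  rw [mul_pow]
  refine mul_le_mul_of_nonneg_right ?_ (by positivity)
  nlinarith [Nat.cast_nonneg (α := ℝ) n]

theorem mv_pos {ρ : ℝ} (hρ : 0 < ρ) : 0 < mv n ρ := by
  exact ENNReal.toReal_pos (measure_ball_pos _ _ (by positivity)).ne' measure_ball_lt_top.ne

theorem mean_flat {H : E n → ℂ} {y : E n} {ρ : ℝ} (hρ : 0 < ρ)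
    (hH : AnalyticOnNhd ℂ H (closedBall y ρ)) :
    ENNReal.ofReal (‖H y‖ ^ 2 * mv n ρ) ≤
      ∫⁻ w in ball y ρ, ENNReal.ofReal (‖H w‖ ^ 2) ∂lam n := by
  have hn : (0 : ℝ) < n + 1 := by positivity
  have h1 : AnalyticOnNhd ℂ (fun w : Fin n → ℂ => H (WithLp.toLp 2 w))
      (closedBall (WithLp.ofLp y) (ρ / (n + 1))) := fun w hw => by
    refine (hH _ ((meanx_norm w y).trans ?_)).comp
      ((EuclideanSpace.equiv (Fin n) ℂ).symm.analyticAt w)
    rw [mul_comm]
    exact (le_div_iff₀ hn).1 hw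
  have h2 := P271.mean_ball (by positivity) h1
  have h3 : MeasurePreserving (WithLp.toLp 2 : (Fin n → ℂ) → E n) volume (lam n) :=
    ⟨WithLp.measurable_toLp 2 _, rfl⟩
  rw [← h3.setLIntegral_comp_preimage_emb
    (MeasurableEquiv.toLp 2 (Fin n → ℂ)).measurableEmbedding, mv,
    ENNReal.ofReal_mul (by positivity), ENNReal.ofReal_toReal measure_ball_lt_top.ne]
  refine h2.trans (lintegral_mono_set fun w hw => (meanx_norm w y).trans_lt ?_)
  rw [mul_comm]
  exact (lt_div_iff₀ hn).1 hw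

theorem mean_wt {H : E n → ℂ} {φ : E n → ℝ} {U : Set (E n)} {y : E n} {ρ b : ℝ} (hρ : 0 < ρ)
    (hU : IsOpen U) (hH : DifferentiableOn ℂ H U) (hS : closedBall y ρ ⊆ U)
    (hb : ∀ w ∈ ball y ρ, φ w ≤ b) :
    ENNReal.ofReal (‖H y‖ ^ 2 * mv n ρ) ≤ ENNReal.ofReal (Real.exp b) * nq φ U H := by
  refine (mean_flat hρ ((P278.osgood hU hH).mono hS)).trans ?_
  rw [nq, ← lintegral_const_mul' _ _ ENNReal.ofReal_ne_top]
  refine le_trans (setLIntegral_mono' measurableSet_ball fun w hw => ?_)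
    (lintegral_mono_set (ball_subset_closedBall.trans hS))
  rw [← ENNReal.ofReal_mul (Real.exp_pos b).le, mul_left_comm, ← Real.exp_add]
  refine ENNReal.ofReal_le_ofReal (le_mul_of_one_le_right (by positivity) ?_)
  exact Real.one_le_exp (by linarith [hb w hw])

end Vale.Agent.P272.K
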