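import Vale.Agent.P272.F.K.Defs

/-! P272 K/Wei (auxiliary names start with `weix_`; overview in `notes/P272K.md`).

Weierstrass. On `ball y t` with `ball y (3 t)` inside the neighbourhood, `P278.osg2_cauchy` bounds
the derivatives by `c / t * (1 / 2) ^ k`; then `hasFDerivAt_tsum_of_isPreconnected`. -/

open Metric Set Filter Topology MeasureTheory
open scoped ContDiff ENNReal ComplexConjugate

noncomputable section

namespace Vale.Agent.P272.K

variable {n : ℕ} {X : Type} [TopologicalSpace X]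

theorem hol_tsum {U : Set (E n)} (hU : IsOpen U) {f : ℕ → E n → ℂ}
    (hf : ∀ k, DifferentiableOn ℂ (f k) U)
    (hb : ∀ y ∈ U, ∃ c : ℝ, ∀ᶠ z in 𝓝 y, ∀ k, ‖f k z‖ ≤ c * (1 / 2) ^ k) :
    DifferentiableOn ℂ (fun z => ∑' k, f k z) U := by
  intro y hy
  obtain ⟨c, hc⟩ := hb y hy
  obtain ⟨ε, hε, hs⟩ := Metric.mem_nhds_iff.1 (inter_mem (hU.mem_nhds hy) hc)
  have ht : 0 < ε / 3 := by positivity
  have h1 : ∀ x ∈ ball y (ε / 3), closedBall x (ε / 3) ⊆ ball y ε := fun x hx =>
    closedBall_subset_ball' (by linarith [mem_ball.1 hx])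
  have hg : Summable fun k : ℕ => c * (1 / 2 : ℝ) ^ k := summable_geometric_two.mul_left c
  have h2 := hasFDerivAt_tsum_of_isPreconnected (𝕜 := ℂ) (f := f) (f' := fun k x => fderiv ℂ (f k) x)
    (hg.div_const (ε / 3)) isOpen_ball (convex_ball y (ε / 3)).isPreconnected
    (fun k x hx => ((hf k).differentiableAt
      (hU.mem_nhds (hs (h1 x hx (mem_closedBall_self ht.le))).1)).hasFDerivAt)
    (fun k x hx => P278.osg2_cauchy hU (hf k) ht (fun z hz => (hs (h1 x hx hz)).1)
      fun z hz => (hs (h1 x hx hz)).2 k)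
    (mem_ball_self ht) (Summable.of_norm_bounded hg fun k => (hs (mem_ball_self hε)).2 k)
    (mem_ball_self ht)
  exact h2.differentiableAt.differentiableWithinAt

end Vale.Agent.P272.K
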