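import Vale.Agent.P272.F.K.Iter
import Vale.Agent.P272.F.K.Wei
import Vale.Agent.P272.F.K.Mean

/-! P272 K/Lim (auxiliary names start with `limx_`; overview in `notes/P272K.md`).

The limit `s j x = F j x + ∑' k, H k j x`. `lim_pt`: `mean_wt`, take square roots. Holomorphy:
`hol_tsum`, with `closedBall y (2 ρ) ⊆ bl j` and `φ j` bounded above on this compact set.
Compatibility: at `x ∈ U i ∩ U j` the defects `u (F + ∑ l < k, H l) i j x` tend to `0` by `mean_wt` on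
the open set `ov i j` (`u_hol`), and they tend to `t i j x * s i x - s j x`.
The estimate: `‖∑' H k‖ ≤ ∑' 2 q (1 / 2) ^ k = 4 q` with `q = sqrt (exp b * D / mv n ρ)`. -/

open Metric Set Filter Topology MeasureTheory
open scoped ContDiff ENNReal ComplexConjugate

noncomputable section

namespace Vale.Agent.P272.K

variable {n : ℕ} {X : Type} [TopologicalSpace X]

variable {C : Cv n X} {κ : ℝ} (Λ : Lb C κ) {F : Fin C.N → X → ℂ}

theorem lim_pt {H : E n → ℂ} {φ : E n → ℝ} {U : Set (E n)} {y : E n} {ρ b D : ℝ} {k : ℕ}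
    (hρ : 0 < ρ) (hD : 0 ≤ D) (hU : IsOpen U) (hH : DifferentiableOn ℂ H U)
    (hS : closedBall y ρ ⊆ U) (hb : ∀ w ∈ ball y ρ, φ w ≤ b)
    (h : nq φ U H ≤ ENNReal.ofReal (D * (1 / 4) ^ k)) :
    ‖H y‖ ≤ Real.sqrt (Real.exp b * D / mv n ρ) * (1 / 2) ^ k := by
  have hm : 0 < mv n ρ := mv_pos hρ
  have h1 := (mean_wt hρ hU hH hS hb).trans (mul_le_mul_right h _)
  rw [← ENNReal.ofReal_mul (Real.exp_pos b).le,
    ENNReal.ofReal_le_ofReal_iff (by positivity), ← le_div_iff₀ hm] at h1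
  refine (sq_le_sq₀ (norm_nonneg _) (by positivity)).1 (h1.trans_eq ?_)
  have h2 : ((1 / 2 : ℝ) ^ k) ^ 2 = (1 / 4) ^ k := by
    rw [← pow_mul, mul_comm, pow_mul]
    norm_num
  rw [mul_pow, Real.sq_sqrt (by positivity), h2]
  ring

theorem limx_bd {f : ℕ → E n → ℂ} {φ : E n → ℝ} {U : Set (E n)} {D : ℝ} (hD : 0 ≤ D)
    (hU : IsOpen U) (hφ : ContinuousOn φ U) (hf : ∀ k, DifferentiableOn ℂ (f k) U)
    (h : ∀ k, nq φ U (f k) ≤ ENNReal.ofReal (D * (1 / 4) ^ k)) {y : E n} (hy : y ∈ U) :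
    ∃ c : ℝ, ∀ᶠ z in 𝓝 y, ∀ k, ‖f k z‖ ≤ c * (1 / 2) ^ k := by
  have h1 : ∀ᶠ w in 𝓝 y, w ∈ U ∧ φ w ≤ φ y + 1 :=
    Eventually.and (hU.mem_nhds hy)
      ((hφ.continuousAt (hU.mem_nhds hy)).eventually (eventually_le_nhds (lt_add_one _)))
  obtain ⟨ε, hε, h2⟩ := Metric.eventually_nhds_iff_ball.1 h1
  have h3 : 0 < ε / 2 := half_pos hε
  refine ⟨Real.sqrt (Real.exp (φ y + 1) * D / mv n (ε / 2)), ?_⟩
  filter_upwards [ball_mem_nhds y h3] with z hz k
  have h4 : closedBall z (ε / 2) ⊆ ball y ε :=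
    closedBall_subset_ball' (by linarith [mem_ball.1 hz])
  exact lim_pt h3 hD hU (hf k) (fun w hw => (h2 w (h4 hw)).1)
    (fun w hw => (h2 w (h4 (ball_subset_closedBall hw))).2) (h k)

theorem limx_geo (c : ℝ) : HasSum (fun k : ℕ => c * (1 / 2 : ℝ) ^ k) (c * 2) :=
  hasSum_geometric_two.mul_left c

theorem core (hκ : 0 < κ) (hN : 48 * (C.N : ℝ) ^ 2 * C.B ^ 2 ≤ κ) (hF : ∀ i, C.Hol i (F i))
    {D : ℝ} (hD : 0 ≤ D) (hd : Λ.dd F ≤ ENNReal.ofReal D) :
    ∃ s : Fin C.N → X → ℂ, (∀ i, C.Hol i (s i)) ∧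
      (∀ i j x, x ∈ C.U i → x ∈ C.U j → s j x = Λ.t i j x * s i x) ∧
      ∀ j y (ρ b : ℝ), 0 < ρ → closedBall y ρ ⊆ C.bl j → (∀ w ∈ ball y ρ, Λ.φ j w ≤ b) →
        ‖s j ((C.e j).symm y) - F j ((C.e j).symm y)‖ ^ 2 * mv n ρ ≤ 16 * Real.exp b * D := by
  obtain ⟨H, h1, h2, h3⟩ := iter Λ hκ hN hF hD hd
  have hD4 : 0 ≤ 4 * D := by positivity
  have hb : ∀ j, ∀ y ∈ C.bl j, ∃ c : ℝ, ∀ᶠ z in 𝓝 y, ∀ k,
      ‖(H k j ∘ (C.e j).symm) z‖ ≤ c * (1 / 2) ^ k := fun j y hy =>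
    limx_bd hD4 isOpen_ball (Λ.sm j).continuousOn (fun k => h1 k j) (fun k => h2 k j) hy
  have hs : ∀ j x, x ∈ C.U j → Tendsto (fun k => (F + ∑ l ∈ Finset.range k, H l) j x) atTop
      (𝓝 (F j x + ∑' k, H k j x)) := by
    intro j x hx
    obtain ⟨c, hc⟩ := hb j _ hx.2
    have h4 := hc.self_of_nhds
    simp only [Function.comp_apply, (C.e j).left_inv hx.1] at h4
    have h5 := (Summable.of_norm_bounded (limx_geo c).summable h4).hasSum.tendsto_sum_nat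
    simp only [Pi.add_apply, Finset.sum_apply]
    exact h5.const_add _
  refine ⟨fun j x => F j x + ∑' k, H k j x, fun j => ?_, fun i j x hi hj => ?_,
    fun j y ρ b hρ hS hφ => ?_⟩
  · exact (hF j).add (hol_tsum isOpen_ball (fun k => h1 k j) (hb j))
  · have hG : ∀ k i, C.Hol i ((F + ∑ l ∈ Finset.range k, H l) i) := by
      intro k i
      have e : (F + ∑ l ∈ Finset.range k, H l) i ∘ (C.e i).symm =
          fun z => (F i ∘ (C.e i).symm) z + ∑ l ∈ Finset.range k, (H l i ∘ (C.e i).symm) z := by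
        funext z
        simp only [Function.comp_apply, Pi.add_apply, Finset.sum_apply]
      rw [Cv.Hol, e]
      exact (hF i).add (DifferentiableOn.fun_sum fun l _ => h1 l i)
    obtain ⟨c, hc⟩ := limx_bd hD (ov_open C i j)
      ((Λ.sm j).continuousOn.mono inter_subset_left) (fun k => u_hol Λ (hG k) i j)
      (fun k => le_trans (Finset.single_le_sum (f := fun i => nq (Λ.φ j) (C.ov i j)
        (Λ.u (F + ∑ l ∈ Finset.range k, H l) i j ∘ (C.e j).symm)) (fun _ _ => zero_le)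
        (Finset.mem_univ i)) ((dj_le Λ _ j).trans (h3 k))) (mem_ov hi hj)
    have h4 := hc.self_of_nhds
    simp only [Function.comp_apply, (C.e j).left_inv hj.1] at h4
    have h5 := squeeze_zero_norm h4 (limx_geo c).summable.tendsto_atTop_zero
    have h6 := ((hs i x hi).const_mul (Λ.t i j x)).sub (hs j x hj)
    exact (sub_eq_zero.1 (tendsto_nhds_unique h6 h5)).symm
  · have hm : 0 < mv n ρ := mv_pos hρ
    have h4 := tsum_of_norm_bounded (limx_geo _) fun k =>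
      lim_pt hρ hD4 isOpen_ball (h1 k j) hS hφ (h2 k j)
    have h5 := pow_le_pow_left₀ (norm_nonneg _) h4 2
    rw [mul_pow, Real.sq_sqrt (by positivity)] at h5
    rw [add_sub_cancel_left, ← le_div_iff₀ hm]
    exact h5.trans_eq (by ring)

end Vale.Agent.P272.K
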