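import Vale.Agent.P272.F.K.Chart
import Vale.Agent.P272.F.K.Pow

/-! P272 K/LocA (auxiliary names start with `locax_`; overview in `notes/P272K.md`).

From ratios to the family `w 0 = σ₀ ^ k`, `w (i + 1) = σ₀ ^ (k - 1) σ i` (`sec_pow`, `Fin.cons`), on
`W = V' ×ˢ V'`, `V' = source ∩ e ⁻¹' V`; `gd_of` in the chart `j`. On `V` one has
`w (i + 1) = w 0 * (σ i / σ₀)`, `w 0 ≠ 0`; for `Im` differentiate this product. -/

open Metric Set Filter Topology MeasureTheory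
open scoped ContDiff ENNReal ComplexConjugate

noncomputable section

namespace Vale.Agent.P272.K

variable {n : ℕ} {X : Type} [TopologicalSpace X]

theorem lc_ratio {A : Atl n X} {m : ℕ} (hm : 1 ≤ m) (σ₀ : A.Sec m) (σ : Fin n → A.Sec m)
    {j : Fin A.N} {p : X} (hp : p ∈ (A.e j).source) {V : Set (E n)} (hV : IsOpen V)
    (hpV : A.e j p ∈ V) (hVt : V ⊆ (A.e j).target) (h0 : ∀ y ∈ V, σ₀.s j y ≠ 0)
    (h1 : ∀ y ∈ V, ∀ y' ∈ V,
      (∀ i, (σ i).s j y / σ₀.s j y = (σ i).s j y' / σ₀.s j y') → y = y')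
    (h2 : ∀ y ∈ V, ∀ a, (∀ i, fderiv ℂ (fun w => (σ i).s j w / σ₀.s j w) y a = 0) → a = 0) :
    Lc A p p := by
  have hV' : (A.e j).source ∩ A.e j ⁻¹' V ∈ 𝓝 p := inter_mem ((A.e j).open_source.mem_nhds hp)
    (((A.e j).continuousAt hp).preimage_mem_nhds (hV.mem_nhds hpV))
  refine ⟨m, hm, _, prod_mem_nhds hV' hV', fun k hk => ?_⟩
  choose w hw using fun i : Fin (n + 1) =>
    sec_pow σ₀ ((Fin.cons σ₀ σ : Fin (n + 1) → A.Sec m) i) hk
  have w0 : ∀ y ∈ V, (w 0).s j y ≠ 0 := fun y hy => by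
    rw [hw, Fin.cons_zero]
    exact mul_ne_zero (pow_ne_zero _ (h0 y hy)) (h0 y hy)
  have ws : ∀ i : Fin n, ∀ y ∈ V, (w i.succ).s j y = (w 0).s j y * ((σ i).s j y / σ₀.s j y) :=
    fun i y hy => by
      rw [hw, hw, Fin.cons_zero, Fin.cons_succ, mul_assoc, mul_div_cancel₀ _ (h0 y hy)]
  refine ⟨n + 1, w, fun z hz => ?_⟩
  obtain ⟨⟨hx, hxV⟩, hx', hxV'⟩ := hz
  refine gd_of hx hx' ⟨0, w0 _ hxV⟩ (fun c h => ?_) fun _ a c h => ?_
  · refine (A.e j).injOn hx hx' (h1 _ hxV _ hxV' fun i => ?_)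
    have h3 := h i.succ
    rw [ws i _ hxV, ws i _ hxV', ← mul_assoc, ← h 0] at h3
    exact mul_left_cancel₀ (w0 _ hxV) h3
  · refine h2 _ hxV a fun i => ?_
    have hd : ∀ {l : ℕ} (τ : A.Sec l), DifferentiableAt ℂ (τ.s j) (A.e j z.1) := fun τ =>
      (τ.hol j).differentiableAt ((A.e j).open_target.mem_nhds (hVt hxV))
    have h3 := h i.succ
    have h4 : (w i.succ).s j =ᶠ[𝓝 (A.e j z.1)]
        fun y => (w 0).s j y * ((σ i).s j y / σ₀.s j y) :=
      eventually_of_mem (hV.mem_nhds hxV) (ws i)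
    have h5 : DifferentiableAt ℂ (fun y => (σ i).s j y / σ₀.s j y) (A.e j z.1) := by
      simp only [div_eq_mul_inv]
      exact (hd (σ i)).fun_mul ((hd σ₀).fun_inv (h0 _ hxV))
    rw [h4.fderiv_eq, fderiv_fun_mul (hd (w 0)) h5, ws i _ hxV] at h3
    simp only [ContinuousLinearMap.add_apply, ContinuousLinearMap.smul_apply, smul_eq_mul,
      h 0] at h3
    refine mul_left_cancel₀ (w0 _ hxV) ?_
    linear_combination h3

end Vale.Agent.P272.K
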