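import Vale.Agent.P272.F.K.LocA
import Vale.Agent.P272.F.K.Flat
import Vale.Agent.P272.F.K.Peak

/-! P272 K/LocB (auxiliary names start with `locbx_`; overview in `notes/P272K.md`).

The diagonal. `peak` with `q = 1`, `pt = fun _ => p`, `ε = ρ / (16 (n + 1))`, data `1` and the
coordinates `y i - ct A p i` (`Filter.eventually_all`, and `1 ≤ m` eventually). With
`g = σ.s * exp (-(m P))` the ratios `g i / g₀ = σ i / σ₀` agree as functions; `flat_inj`, `ball_ct`,
`lc_ratio` with `V = ball (ct A p) (ρ / 2)`. -/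

open Metric Set Filter Topology MeasureTheory
open scoped ContDiff ENNReal ComplexConjugate

noncomputable section

namespace Vale.Agent.P272.K

variable {n : ℕ} {X : Type} [TopologicalSpace X]

theorem lc_diag [T2Space X] [CompactSpace X] {A : Atl n X} (v : A.LV) (hv : Ps v) (p : X) :
    Lc A p p := by
  obtain ⟨ρ, P, hρ, hρ1, hP, H⟩ := peak v hv (q := 1) (pt := fun _ => p)
    (fun a b _ => Subsingleton.elim a b)
  have hε : 0 < ρ / (16 * (n + 1)) := by positivity
  have hc : ∀ i : Fin n, Differentiable ℂ fun y : E n => y i - ct A p i := fun i =>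
    (EuclideanSpace.proj (𝕜 := ℂ) i).differentiable.sub_const _
  obtain ⟨m, hm, ⟨σ₀, h₀⟩, h₁⟩ := ((eventually_ge_atTop 1).and
    ((H (fun _ _ => 1) (fun _ => differentiable_const _) _ hε).and
      (eventually_all.2 fun i : Fin n => H (fun _ y => y i - ct A p i) (fun _ => hc i) _ hε))).exists
  choose σ hσ using h₁
  have ht : ball (ct A p) ρ ⊆ (A.e (A.ch p)).target :=
    ball_subset_closedBall.trans (ball_ct A p hρ1)
  have he : Differentiable ℂ fun y => Complex.exp (-(m * P 0 y)) :=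
    (((hP 0).const_mul _).neg).cexp
  have hd : ∀ τ : A.Sec m, DifferentiableOn ℂ
      (fun y => τ.s (A.ch p) y * Complex.exp (-(m * P 0 y))) (ball (ct A p) ρ) := fun τ =>
    ((τ.hol _).mono ht).mul he.differentiableOn
  obtain ⟨a0, a1, a2⟩ := flat_inj (ε := ρ / (16 * (n + 1))) hρ hρ1
    (le_of_eq (by field_simp)) (hd σ₀) (fun i => hd (σ i)) (h₀ 0) fun i => hσ i 0
  have hr : ∀ i y, (σ i).s (A.ch p) y * Complex.exp (-(m * P 0 y)) /
      (σ₀.s (A.ch p) y * Complex.exp (-(m * P 0 y))) = (σ i).s (A.ch p) y / σ₀.s (A.ch p) y :=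
    fun i y => mul_div_mul_right _ _ (Complex.exp_ne_zero _)
  simp only [hr] at a1 a2
  have hs : ball (ct A p) (ρ / 2) ⊆ ball (ct A p) ρ := ball_subset_ball (by linarith)
  exact lc_ratio hm σ₀ σ (ch_mem A p).1 isOpen_ball (mem_ball_self (half_pos hρ)) (hs.trans ht)
    (fun y hy => left_ne_zero_of_mul (a0 y (hs hy))) a1 a2

end Vale.Agent.P272.K
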