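import Vale.Agent.P272.F.K.Defs

/-! P272 K/Lv (auxiliary names start with `lvx_`; overview in `notes/P272K.md`).

Levi form facts. `levi_re`: near `y` the real derivative of `Re Q` is `a ↦ Re (DQ w a)`, so the second
derivative is `Re (D²Q y a b)` with `D²Q` complex bilinear, and `D²Q (I a) (I a) = - D²Q a a`.
`levi_unif`: `(y, a) ↦ levi u y a` is continuous on the compact set `K ×ˢ sphere 0 1`
(`ContDiffOn.continuousOn_fderiv_of_isOpen`, `ContDiffOn.fderiv_of_isOpen`), and `levi` is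
homogeneous of degree two for real scalars. -/

open Metric Set Filter Topology MeasureTheory
open scoped ContDiff ENNReal ComplexConjugate

noncomputable section

namespace Vale.Agent.P272.K

variable {n : ℕ} {X : Type} [TopologicalSpace X]

/-- Real part of a complex linear form. -/
def lvx_R (n : ℕ) : (E n →L[ℂ] ℂ) →L[ℝ] (E n →L[ℝ] ℝ) :=
  (ContinuousLinearMap.compL ℝ (E n) ℂ ℝ Complex.reCLM).comp
    (ContinuousLinearMap.restrictScalarsL ℂ (E n) ℂ ℝ ℝ)

theorem lvx_two {Q : E n → ℂ} {y : E n} (hQ : AnalyticAt ℂ Q y) (a b : E n) :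
    fderiv ℝ (fderiv ℝ fun w => (Q w).re) y a b = (fderiv ℂ (fderiv ℂ Q) y a b).re := by
  have h1 : (fderiv ℝ fun w => (Q w).re) =ᶠ[𝓝 y] fun w => lvx_R n (fderiv ℂ Q w) := by
    filter_upwards [hQ.eventually_analyticAt] with w hw
    exact (Complex.reCLM.hasFDerivAt.comp w
      (hw.differentiableAt.hasFDerivAt.restrictScalars ℝ)).fderiv
  have h2 := (lvx_R n).hasFDerivAt.comp y
    (hQ.fderiv.differentiableAt.hasFDerivAt.restrictScalars ℝ)
  rw [(h2.congr_of_eventuallyEq h1).fderiv]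
  rfl

theorem levi_re {Q : E n → ℂ} {y : E n} (hQ : AnalyticAt ℂ Q y) (a : E n) :
    levi (fun w => (Q w).re) y a = 0 := by
  rw [levi, lvx_two hQ, lvx_two hQ, map_smul, map_smul, _root_.smul_apply, smul_smul,
    Complex.I_mul_I]
  simp

theorem lvx_lin {u w : E n → ℝ} {y : E n} (hu : ContDiffAt ℝ 2 u y) (hw : ContDiffAt ℝ 2 w y)
    (s t : ℝ) : fderiv ℝ (fderiv ℝ fun z => s * u z - t * w z) y =
      s • fderiv ℝ (fderiv ℝ u) y - t • fderiv ℝ (fderiv ℝ w) y := by
  have h1 : (fderiv ℝ fun z => s * u z - t * w z) =ᶠ[𝓝 y]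
      fun z => s • fderiv ℝ u z - t • fderiv ℝ w z := by
    filter_upwards [hu.eventually (by simp), hw.eventually (by simp)] with z h1 h2
    exact (((h1.differentiableAt two_ne_zero).hasFDerivAt.const_mul s).sub
      ((h2.differentiableAt two_ne_zero).hasFDerivAt.const_mul t)).fderiv
  have h2 := ((hu.fderiv_right (m := 1) le_rfl).differentiableAt one_ne_zero).hasFDerivAt
  have h3 := ((hw.fderiv_right (m := 1) le_rfl).differentiableAt one_ne_zero).hasFDerivAt
  exact (((h2.const_smul s).sub (h3.const_smul t)).congr_of_eventuallyEq h1).fderiv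

theorem levi_lin {u w : E n → ℝ} {y : E n} (hu : ContDiffAt ℝ 2 u y) (hw : ContDiffAt ℝ 2 w y)
    (s t : ℝ) (a : E n) :
    levi (fun z => s * u z - t * w z) y a = s * levi u y a - t * levi w y a := by
  simp only [levi, lvx_lin hu hw, _root_.sub_apply, _root_.smul_apply,
    smul_eq_mul]
  ring

theorem lvx_hom (u : E n → ℝ) (y : E n) (c : ℝ) (a : E n) :
    levi u y (c • a) = c ^ 2 * levi u y a := by
  rw [levi, levi, smul_comm Complex.I c a]
  simp only [map_smul, _root_.smul_apply, smul_eq_mul]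
  ring

theorem lvx_cont {u : E n → ℝ} {U : Set (E n)} (hU : IsOpen U) (hu : ContDiffOn ℝ ∞ u U) :
    ContinuousOn (fun p : E n × E n => levi u p.1 p.2) (U ×ˢ univ) := by
  have h1 : ContinuousOn (fderiv ℝ (fderiv ℝ u)) U :=
    (hu.fderiv_of_isOpen (m := 1) hU (by norm_cast)).continuousOn_fderiv_of_isOpen hU le_rfl
  have h2 : ContinuousOn (fun p : E n × E n => fderiv ℝ (fderiv ℝ u) p.1) (U ×ˢ univ) :=
    h1.comp continuousOn_fst fun p hp => hp.1
  have h3 : ContinuousOn (fun p : E n × E n => Complex.I • p.2) (U ×ˢ univ) :=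
    by fun_prop
  exact (((h2.clm_apply continuousOn_snd).clm_apply continuousOn_snd).add
    ((h2.clm_apply h3).clm_apply h3)).div_const 4

theorem levi_unif {u : E n → ℝ} {K U : Set (E n)} (hK : IsCompact K) (hU : IsOpen U)
    (hKU : K ⊆ U) (hu : ContDiffOn ℝ ∞ u U) (h : ∀ y ∈ K, ∀ a, a ≠ 0 → 0 < levi u y a) :
    ∃ κ : ℝ, 0 < κ ∧ ∀ y ∈ K, ∀ a, κ * ‖a‖ ^ 2 ≤ levi u y a := by
  have hc : IsCompact (K ×ˢ sphere (0 : E n) 1) := hK.prod (isCompact_sphere _ _)
  obtain ⟨κ, hκ, hb⟩ := hc.exists_forall_le' (a := (0 : ℝ))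
    ((lvx_cont hU hu).mono (prod_mono hKU (subset_univ _))) fun p hp =>
      h p.1 hp.1 p.2 (ne_zero_of_mem_unit_sphere ⟨p.2, hp.2⟩)
  refine ⟨κ, hκ, fun y hy a => ?_⟩
  by_cases ha : a = 0
  · subst ha
    simp [levi]
  · have hn : ‖a‖ ≠ 0 := norm_ne_zero_iff.2 ha
    have h1 : κ ≤ levi u y (‖a‖⁻¹ • a) :=
      hb (y, ‖a‖⁻¹ • a) ⟨hy, by simp [norm_smul, hn]⟩
    have h2 : levi u y a = ‖a‖ ^ 2 * levi u y (‖a‖⁻¹ • a) := by
      rw [← lvx_hom, smul_inv_smul₀ hn]
    rw [h2, mul_comm]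
    exact mul_le_mul_of_nonneg_left h1 (sq_nonneg _)

end Vale.Agent.P272.K
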