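import Vale.Agent.P272.F.K.Wt0
import Vale.Agent.P272.F.K.Lv

/-! P272 K/Wt (auxiliary names start with `wtx_`; overview in `notes/P272K.md`).

The bundle `m K`. `hol`: `dt_an`, `C.an`; `coc`, `one`: `dt_coc`, `dt_one`, `Complex.exp_add`;
`sm`: `v.sm`, `Q i` is analytic (`P278.osgood`); `lev`: `levi_lin`, `levi_re`; `cv`: `wt_cv`. -/

open Metric Set Filter Topology MeasureTheory
open scoped ContDiff ENNReal ComplexConjugate

noncomputable section

namespace Vale.Agent.P272.K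

variable {n : ℕ} {X : Type} [TopologicalSpace X]

variable {A : Atl n X} {C : Cv n X} {k : Fin C.N → Fin A.N} {Q : Fin C.N → E n → ℂ} {m : ℕ}

theorem exists_lb (v : A.LV) (hk : C.On A k) (hQ : ∀ i, Differentiable ℂ (Q i)) {κ : ℝ}
    (hκ : ∀ i, ∀ y ∈ C.bl i, ∀ a, κ * ‖a‖ ^ 2 ≤ levi (v.l (k i)) y a) (hm : 1 ≤ m) :
    ∃ Λ : Lb C (((m : ℝ) - 1) * κ), Λ.t = tw A k Q m ∧ Λ.φ = ww v k Q m := by
  have hs : ∀ i x, x ∈ C.U i → x ∈ (A.e (k i)).source := fun i x hx => by
    rw [← hk i]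
    exact hx.1
  have hA : ∀ i y, AnalyticAt ℂ (Q i) y := fun i y =>
    P278.osgood_at (Eventually.of_forall (hQ i))
  have hR : ∀ i y, ContDiffAt ℝ ∞ (fun w => (Q i w).re) y := fun i y =>
    Complex.reCLM.contDiff.contDiffAt.comp y ((hA i y).contDiffAt.restrict_scalars ℝ)
  have hL : ∀ i, ∀ y ∈ C.bl i, ContDiffAt ℝ ∞ (v.l (k i)) y := fun i y hy =>
    (v.sm (k i)).contDiffAt ((A.e (k i)).open_target.mem_nhds (by
      rw [← hk i]
      exact bl_sub C i hy))
  refine ⟨⟨tw A k Q m, fun i j y hy => DifferentiableAt.differentiableWithinAt ?_,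
    fun i j l x hi hj hl => ?_, fun i x hi => ?_, ww v k Q m,
    fun i y hy => ContDiffAt.contDiffWithinAt ?_, fun i y hy a => ?_, wt_cv v hk⟩, rfl, rfl⟩
  · have hj := symm_mem_U hy.1
    have e : C.e j ((C.e j).symm y) = y := (C.e j).right_inv (bl_sub C j hy.1)
    have h1 := (dt_an (hs i _ hy.2) (hs j _ hj) (hs j _ hj)).differentiableAt
    have h2 := (C.an i j _ hy.2.1 hj.1).differentiableAt
    have h3 := (C.an j j _ hj.1 hj.1).differentiableAt
    rw [← hk j, e] at h1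
    rw [e] at h2 h3
    exact (h1.pow m).mul
      (((((hQ i _).comp y h2).const_mul (m : ℂ)).sub (((hQ j _).comp y h3).const_mul (m : ℂ))).cexp)
  · unfold tw
    rw [← dt_coc (hs i x hi) (hs j x hj) (hs l x hl), mul_pow, mul_mul_mul_comm, ← Complex.exp_add,
      sub_add_sub_cancel]
  · unfold tw
    rw [dt_one (hs i x hi), one_pow, sub_self, Complex.exp_zero, mul_one]
  · exact (contDiffAt_const.mul (hL i y hy)).sub (contDiffAt_const.mul (hR i y))
  · have h1 := levi_lin ((hL i y hy).of_le ENat.LEInfty.out) ((hR i y).of_le ENat.LEInfty.out)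
      ((m : ℝ) - 1) (2 * m) a
    rw [levi_re (hA i y), mul_zero, sub_zero] at h1
    have h2 : (0 : ℝ) ≤ (m : ℝ) - 1 := sub_nonneg.2 (by exact_mod_cast hm)
    rw [mul_assoc]
    exact (mul_le_mul_of_nonneg_left (hκ i y hy a) h2).trans_eq h1.symm

end Vale.Agent.P272.K
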