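import Vale.Agent.P272.F.K.Lim
import Vale.Agent.P272.F.K.Dd
import Vale.Agent.P272.F.K.Wt
import Vale.Agent.P272.F.K.Glue

/-! P272 K/Peak0 (auxiliary names start with `peak0x_`; overview in `notes/P272K.md`).

Abstract peak sections. Constants: `κ > 0` common to the finitely many closed balls (`levi_unif`),
`K` with `|v.l (k j) y| ≤ K`, `‖f j y‖ ≤ K` on the closed balls (compact, inside the targets), `V` a real
bound for `lam n (bl j)` (`lam_ball`). For `m ≥ 2` with `48 N ^ 2 B ^ 2 ≤ (m - 1) κ` take `Λ` from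
`exists_lb`, `F j x = f j (e j x)`. As `ww j = m (l - 2 Re Q) - l`: on `ov i j`
`‖f‖ ^ 2 exp (-ww) ≤ K ^ 2 exp (K - m α)` (`nq_le`, `dd_le`), on `ball y ρ` `ww ≤ m β + K`. Then `core`,
`glue` give `err ^ 2 * mv ≤ 64 N ^ 2 K ^ 2 V exp (2 K) exp (-m (α - β))`, which tends to `0`.
`peak0_step` is the statement for one `m`. -/

open Metric Set Filter Topology MeasureTheory
open scoped ContDiff ENNReal ComplexConjugate

noncomputable section

namespace Vale.Agent.P272.K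

variable {n : ℕ} {X : Type} [TopologicalSpace X]

variable {A : Atl n X} {C : Cv n X} {k : Fin C.N → Fin A.N} {Q f : Fin C.N → E n → ℂ}

theorem peak0_step (v : A.LV) (hk : C.On A k) (hQ : ∀ i, Differentiable ℂ (Q i))
    (hf : ∀ i, Differentiable ℂ (f i)) {α β ρ κ K V : ℝ} (hρ : 0 < ρ) (hκ0 : 0 < κ)
    (hκ : ∀ i, ∀ y ∈ C.bl i, ∀ a, κ * ‖a‖ ^ 2 ≤ levi (v.l (k i)) y a)
    (hK : ∀ i, ∀ y ∈ C.bl i, |v.l (k i) y| ≤ K ∧ ‖f i y‖ ≤ K) (hV0 : 0 ≤ V)
    (hV : ∀ i, lam n (C.bl i) ≤ ENNReal.ofReal V) {T : Fin C.N → Set (E n)}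
    (h1 : ∀ i j, i ≠ j → ∀ y ∈ C.ov i j, f j y ≠ 0 → α ≤ v.l (k j) y - 2 * (Q j y).re)
    (h2 : ∀ j, ∀ y ∈ T j, closedBall y ρ ⊆ C.bl j ∧
      ∀ w ∈ ball y ρ, v.l (k j) w - 2 * (Q j w).re ≤ β) {m : ℕ} (hm : 2 ≤ m)
    (hN : 48 * (C.N : ℝ) ^ 2 * C.B ^ 2 ≤ ((m : ℝ) - 1) * κ) :
    ∃ σ : A.Sec m, ∀ j, ∀ y ∈ T j,
      ‖σ.s (k j) y * Complex.exp (-(m * Q j y)) - f j y‖ ^ 2 * mv n ρ ≤
        64 * (C.N : ℝ) ^ 2 * K ^ 2 * V * Real.exp (2 * K) * Real.exp (-(m * (α - β))) := by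
  obtain ⟨Λ, ht, hφ⟩ := exists_lb (m := m) v hk hQ hκ (by omega)
  have hm' : (2 : ℝ) ≤ m := by exact_mod_cast hm
  have hFy : ∀ j, ∀ y ∈ C.bl j, f j (C.e j ((C.e j).symm y)) = f j y := fun j y hy => by
    rw [(C.e j).right_inv (bl_sub C j hy)]
  have hF : ∀ j, C.Hol j fun x => f j (C.e j x) := fun j =>
    (hf j).differentiableOn.congr (hFy j)
  have hD0 : 0 ≤ K ^ 2 * Real.exp (K - m * α) := by positivity
  have hd := dd_le Λ hF (D := ENNReal.ofReal (K ^ 2 * Real.exp (K - m * α) * V)) fun i j hij => by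
    refine (nq_le (D := K ^ 2 * Real.exp (K - m * α)) (ov_open C i j).measurableSet
      fun y hy => ?_).trans ?_
    · rw [Function.comp_apply, hFy j y hy.1, hφ]
      by_cases h0 : f j y = 0
      · simpa [h0] using hD0
      · obtain ⟨a1, a2⟩ := hK j y hy.1
        have a3 := mul_le_mul_of_nonneg_left (h1 i j hij y hy h0) (Nat.cast_nonneg m)
        have a4 := (abs_le.1 a1).2
        refine mul_le_mul (pow_le_pow_left₀ (norm_nonneg _) a2 2) (Real.exp_le_exp.2 ?_)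
          (Real.exp_pos _).le (sq_nonneg _)
        rw [ww]
        linarith
    · rw [ENNReal.ofReal_mul hD0]
      gcongr
      exact (measure_mono inter_subset_left).trans (hV j)
  have e1 : 4 * (C.N : ℝ≥0∞) ^ 2 * ENNReal.ofReal (K ^ 2 * Real.exp (K - m * α) * V) =
      ENNReal.ofReal (4 * (C.N : ℝ) ^ 2 * (K ^ 2 * Real.exp (K - m * α) * V)) := by
    rw [ENNReal.ofReal_mul (p := 4 * (C.N : ℝ) ^ 2) (by positivity),
      ENNReal.ofReal_mul (p := 4) (by norm_num), ENNReal.ofReal_pow (Nat.cast_nonneg _),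
      ENNReal.ofReal_natCast, ENNReal.ofReal_ofNat]
  rw [e1] at hd
  obtain ⟨s, hs, hc, hb⟩ := core Λ (mul_pos (by linarith) hκ0) hN hF (by positivity) hd
  rw [ht] at hc
  obtain ⟨σ, hσ⟩ := glue hk hQ hs hc
  refine ⟨σ, fun j y hy => ?_⟩
  obtain ⟨b1, b2⟩ := h2 j y hy
  have hyb := b1 (mem_closedBall_self hρ.le)
  have key := hb j y ρ (m * β + K) hρ b1 fun w hw => by
    have a3 := mul_le_mul_of_nonneg_left (b2 w hw) (Nat.cast_nonneg m)
    have a4 := (abs_le.1 (hK j w (b1 (ball_subset_closedBall hw))).1).1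
    rw [hφ, ww]
    linarith
  rw [hFy j y hyb] at key
  rw [hσ j y hyb, mul_assoc, ← Complex.exp_add, add_neg_cancel, Complex.exp_zero, mul_one]
  refine key.trans (le_of_eq ?_)
  have e2 : Real.exp (m * β + K) * Real.exp (K - m * α) =
      Real.exp (2 * K) * Real.exp (-(m * (α - β))) := by
    rw [← Real.exp_add, ← Real.exp_add]
    congr 1
    ring
  linear_combination (64 * (C.N : ℝ) ^ 2 * K ^ 2 * V) * e2

end Vale.Agent.P272.K
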