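import Vale.Agent.P272.F.K.Peak0

/-! P272 K/Peak1 (auxiliary names start with `peak1x_`; overview in `notes/P272K.md`).

Choose the constants of `peak0_step` (see the header of `K/Peak0`) and let `m` tend to infinity
(`mv_pos`, `Real.tendsto_exp_atBot`). -/

open Metric Set Filter Topology MeasureTheory
open scoped ContDiff ENNReal ComplexConjugate

noncomputable section

namespace Vale.Agent.P272.K

variable {n : ℕ} {X : Type} [TopologicalSpace X]

variable {A : Atl n X} {C : Cv n X} {k : Fin C.N → Fin A.N} {Q f : Fin C.N → E n → ℂ}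

theorem peak1 (v : A.LV) (hv : Ps v) (hk : C.On A k) (hQ : ∀ i, Differentiable ℂ (Q i))
    (hf : ∀ i, Differentiable ℂ (f i)) {α β ρ : ℝ} (hαβ : β < α) (hρ : 0 < ρ)
    {T : Fin C.N → Set (E n)}
    (h1 : ∀ i j, i ≠ j → ∀ y ∈ C.ov i j, f j y ≠ 0 → α ≤ v.l (k j) y - 2 * (Q j y).re)
    (h2 : ∀ j, ∀ y ∈ T j, closedBall y ρ ⊆ C.bl j ∧
      ∀ w ∈ ball y ρ, v.l (k j) w - 2 * (Q j w).re ≤ β) {ε : ℝ} (hε : 0 < ε) :
    ∀ᶠ m : ℕ in atTop, ∃ σ : A.Sec m, ∀ j, ∀ y ∈ T j,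
      ‖σ.s (k j) y * Complex.exp (-(m * Q j y)) - f j y‖ ≤ ε := by
  have hs : ∀ i, closedBall (C.c i) (C.r i) ⊆ (A.e (k i)).target := fun i => hk i ▸ C.sub i
  choose κ' p1 p2 using fun i => levi_unif (isCompact_closedBall (C.c i) (C.r i))
    (A.e (k i)).open_target (hs i) (v.sm (k i)) fun y hy => hv (k i) y (hs i hy)
  have p3 : ∀ᶠ t in 𝓝[>] (0 : ℝ), ∀ i, t < κ' i :=
    eventually_all.2 fun i => nhdsWithin_le_nhds (gt_mem_nhds (p1 i))
  obtain ⟨κ, p4, hκ0⟩ := (p3.and self_mem_nhdsWithin).exists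
  have hκ0 : 0 < κ := hκ0
  choose K1 q1 using fun i => (isCompact_closedBall (C.c i) (C.r i)).exists_bound_of_continuousOn
    ((v.sm (k i)).continuousOn.mono (hs i))
  choose K2 q2 using fun i => (isCompact_closedBall (C.c i) (C.r i)).exists_bound_of_continuousOn
    (hf i).continuous.continuousOn
  obtain ⟨K, q3⟩ := Finite.exists_le fun i => max (K1 i) (K2 i)
  have hV0 : 0 ≤ ∑ i, (lam n (C.bl i)).toReal := Finset.sum_nonneg fun _ _ => ENNReal.toReal_nonneg
  have hV : ∀ i, lam n (C.bl i) ≤ ENNReal.ofReal (∑ i, (lam n (C.bl i)).toReal) := fun i =>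
    (ENNReal.le_ofReal_iff_toReal_le (lam_ball _ _) hV0).2
      (Finset.single_le_sum (f := fun i => (lam n (C.bl i)).toReal)
        (fun _ _ => ENNReal.toReal_nonneg) (Finset.mem_univ i))
  have hm := mv_pos (n := n) hρ
  have t1 : Tendsto (fun m : ℕ => ((m : ℝ) - 1) * κ) atTop atTop :=
    (tendsto_atTop_add_const_right _ (-1) tendsto_natCast_atTop_atTop).atTop_mul_const hκ0
  have t2 := (Real.tendsto_exp_neg_atTop_nhds_zero.comp
    (tendsto_natCast_atTop_atTop.atTop_mul_const (sub_pos.2 hαβ))).const_mul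
    (64 * (C.N : ℝ) ^ 2 * K ^ 2 * (∑ i, (lam n (C.bl i)).toReal) * Real.exp (2 * K))
  rw [mul_zero] at t2
  filter_upwards [eventually_ge_atTop 2, t1.eventually_ge_atTop (48 * (C.N : ℝ) ^ 2 * C.B ^ 2),
    t2.eventually (ge_mem_nhds (mul_pos (pow_pos hε 2) hm))] with m m1 m2 m3
  obtain ⟨σ, hσ⟩ := peak0_step v hk hQ hf hρ hκ0 (K := K)
    (fun i y hy a => (mul_le_mul_of_nonneg_right (p4 i).le (sq_nonneg _)).trans
      (p2 i y (ball_subset_closedBall hy) a))
    (fun i y hy => ⟨(q1 i y (ball_subset_closedBall hy)).trans ((le_max_left _ _).trans (q3 i)),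
      (q2 i y (ball_subset_closedBall hy)).trans ((le_max_right _ _).trans (q3 i))⟩)
    hV0 hV h1 h2 m1 m2
  exact ⟨σ, fun j y hy => (abs_le_of_sq_le_sq'
    (le_of_mul_le_mul_right ((hσ j y hy).trans m3) hm) hε.le).2⟩

end Vale.Agent.P272.K
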