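import Vale.Agent.P272.F.K.Ov
import Vale.Agent.P272.F.K.Nq

/-! P272 K/StepA (auxiliary names start with `stepax_`; overview in `notes/P272K.md`).

The smooth correction `g`. At `y ∈ bl j` and for each `i`: either `y ∈ ov i j` (open), where
`u i j ∘ symm` is holomorphic (`u_hol`), hence analytic (`P278.osgood`) and smooth, or
`symm y ∉ U i` and the term vanishes near `y` (`C.supp`, continuity of `symm` at `y`).
`g_nm`: `‖∑ χ i u i‖ ^ 2 ≤ ∑ χ i ‖u i‖ ^ 2 ≤ ∑ indicator (ov i j) ‖u i‖ ^ 2` (Cauchy-Schwarz with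
`∑ χ = 1`), then `nq_sum`. -/

open Metric Set Filter Topology MeasureTheory
open scoped ContDiff ENNReal ComplexConjugate

noncomputable section

namespace Vale.Agent.P272.K

variable {n : ℕ} {X : Type} [TopologicalSpace X]

variable {C : Cv n X} {κ : ℝ} (Λ : Lb C κ) {F : Fin C.N → X → ℂ}

theorem g_smooth (hF : ∀ i, C.Hol i (F i)) (j : Fin C.N) :
    ContDiffOn ℝ ∞ (Λ.g F j ∘ (C.e j).symm) (C.bl j) := by
  intro y hy
  change ContDiffWithinAt ℝ ∞
    (fun w => ∑ i, (C.χ i ((C.e j).symm w) : ℂ) * Λ.u F i j ((C.e j).symm w)) _ _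
  refine (ContDiffAt.sum fun i _ => ?_).contDiffWithinAt
  by_cases h : (C.e j).symm y ∈ C.U i
  · have a1 : ContDiffAt ℝ ∞ (fun w => (C.χ i ((C.e j).symm w) : ℂ)) y :=
      Complex.ofRealCLM.contDiff.contDiffAt.comp y
        ((C.sm i j).contDiffAt (isOpen_ball.mem_nhds hy))
    have a2 := ((P278.osgood (ov_open C i j) (u_hol Λ hF i j) y ⟨hy, h⟩).contDiffAt
      (n := ∞)).restrict_scalars ℝ
    exact a1.mul a2
  · refine (contDiffAt_const (c := 0)).congr_of_eventuallyEq ?_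
    filter_upwards [((C.e j).continuousAt_symm (bl_sub C j hy)).eventually (C.supp i _ h)] with w hw
    rw [hw, Pi.zero_apply, Complex.ofReal_zero, zero_mul]

theorem g_nm (hF : ∀ i, C.Hol i (F i)) (j : Fin C.N) : Λ.nm j (Λ.g F j) ≤ Λ.dj F j := by
  refine le_trans ?_ (nq_sum (S := C.bl j) (fun i => ov_open C i j) (fun i => inter_subset_left)
    (Λ.sm j).continuousOn fun i => (u_hol Λ hF i j).continuousOn)
  refine setLIntegral_mono' isOpen_ball.measurableSet fun y hy => ENNReal.ofReal_le_ofReal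
    (mul_le_mul_of_nonneg_right ?_ (Real.exp_pos _).le)
  have h1 : ‖∑ i, (C.χ i ((C.e j).symm y) : ℂ) * Λ.u F i j ((C.e j).symm y)‖ ≤
      ∑ i, C.χ i ((C.e j).symm y) * ‖Λ.u F i j ((C.e j).symm y)‖ :=
    norm_sum_le_of_le _ fun i _ => by
      rw [norm_mul, Complex.norm_real, Real.norm_of_nonneg (C.nn i _)]
  refine (pow_le_pow_left₀ (norm_nonneg _) h1 2).trans
    ((Real.pow_arith_mean_le_arith_mean_pow _ _ _ (fun i _ => C.nn i _) (C.sum _)
      (fun i _ => norm_nonneg _) 2).trans (Finset.sum_le_sum fun i _ => ?_))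
  by_cases h : (C.e j).symm y ∈ C.U i
  · rw [indicator_of_mem (show y ∈ C.ov i j from ⟨hy, h⟩)]
    exact mul_le_of_le_one_left (sq_nonneg _) (chi_le C i _)
  · rw [chi_zero h, zero_mul]
    exact indicator_nonneg (fun w _ => sq_nonneg _) y

end Vale.Agent.P272.K
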