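import Vale.Agent.P272.F.K.Ov
import Vale.Agent.P272.F.K.Nq

/-! P272 K/StepD (auxiliary names start with `stepdx_`; overview in `notes/P272K.md`).

The bound on the antilinear derivative of `g`. Take
`M y = N * B ^ 2 * ∑ i, indicator (ov i j) (‖u i j (symm ·)‖ ^ 2) y`. For `y ∈ ov i j` the product rule
gives `dbn (χ u) y a = u y * (Dχ a + I Dχ (I a)) / 2` as `u` is complex differentiable at `y`, of norm
at most `B ‖a‖ ‖u y‖` (`C.bd`); otherwise the term vanishes near `y` (`C.supp`). Then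
`(∑ b i) ^ 2 ≤ N ∑ b i ^ 2` (`sq_sum_le_card_mul_sum_sq`), `nq_sum`, `lintegral_const_mul'`. -/

open Metric Set Filter Topology MeasureTheory
open scoped ContDiff ENNReal ComplexConjugate

noncomputable section

namespace Vale.Agent.P272.K

variable {n : ℕ} {X : Type} [TopologicalSpace X]

variable {C : Cv n X} {κ : ℝ} (Λ : Lb C κ) {F : Fin C.N → X → ℂ}

theorem stepdx_mul {χ : E n → ℝ} {u : E n → ℂ} {y : E n} {B : ℝ} (hχ : DifferentiableAt ℝ χ y)
    (hu : DifferentiableAt ℂ u y) (hB : ‖fderiv ℝ χ y‖ ≤ B) :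
    ∃ D : E n →L[ℝ] ℂ, HasFDerivAt (fun w => (χ w : ℂ) * u w) D y ∧
      ∀ a, ‖(D a + Complex.I * D (Complex.I • a)) / 2‖ ^ 2 ≤ B ^ 2 * ‖u y‖ ^ 2 * ‖a‖ ^ 2 := by
  have h1 : HasFDerivAt (fun w => (χ w : ℂ)) (Complex.ofRealCLM.comp (fderiv ℝ χ y)) y :=
    Complex.ofRealCLM.hasFDerivAt.comp y hχ.hasFDerivAt
  refine ⟨_, h1.mul (hu.hasFDerivAt.restrictScalars ℝ), fun a => ?_⟩
  have b : ∀ v : E n, ‖(fderiv ℝ χ y v : ℂ)‖ ≤ B * ‖v‖ := fun v => by
    rw [Complex.norm_real]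
    exact (fderiv ℝ χ y).le_of_opNorm_le hB v
  have b2 := b (Complex.I • a)
  rw [norm_smul, Complex.norm_I, one_mul] at b2
  have b3 : ‖(fderiv ℝ χ y a : ℂ) + Complex.I * (fderiv ℝ χ y (Complex.I • a) : ℂ)‖ ≤
      2 * (B * ‖a‖) := by
    refine (norm_add_le _ _).trans ?_
    rw [norm_mul, Complex.norm_I, one_mul]
    linarith [b a]
  have e : ∀ p q r c d : ℂ, (c * p + d * q + Complex.I * (c * (Complex.I * p) + d * r)) / 2 =
      d * (q + Complex.I * r) / 2 := fun p q r c d => by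
    linear_combination (c * p / 2) * Complex.I_mul_I
  simp only [add_apply, smul_apply,
    ContinuousLinearMap.coe_restrictScalars', map_smul, smul_eq_mul,
    ContinuousLinearMap.comp_apply, Complex.ofRealCLM_apply, e]
  rw [← mul_pow, ← mul_pow]
  refine pow_le_pow_left₀ (norm_nonneg _) ?_ 2
  rw [norm_div, norm_mul, Complex.norm_two]
  nlinarith [mul_le_mul_of_nonneg_left b3 (norm_nonneg (u y))]

theorem stepdx_term (hF : ∀ i, C.Hol i (F i)) (i j : Fin C.N) {y : E n} (hy : y ∈ C.bl j) :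
    ∃ D : E n →L[ℝ] ℂ, HasFDerivAt
      (fun w => (C.χ i ((C.e j).symm w) : ℂ) * Λ.u F i j ((C.e j).symm w)) D y ∧
      ∀ a, ‖(D a + Complex.I * D (Complex.I • a)) / 2‖ ^ 2 ≤ C.B ^ 2 *
        (C.ov i j).indicator (fun w => ‖(Λ.u F i j ∘ (C.e j).symm) w‖ ^ 2) y * ‖a‖ ^ 2 := by
  by_cases h : y ∈ C.ov i j
  · rw [indicator_of_mem h]
    exact stepdx_mul (χ := C.χ i ∘ (C.e j).symm)
      (((C.sm i j).contDiffAt (isOpen_ball.mem_nhds hy)).differentiableAt (by simp))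
      ((u_hol Λ hF i j).differentiableAt ((ov_open C i j).mem_nhds h)) (C.bd i j y hy)
  · refine ⟨0, ?_, fun a => by simp [indicator_of_notMem h]⟩
    have h1 := ((C.e j).continuousAt_symm (bl_sub C j hy)).eventually
      (C.supp i _ fun h' => h ⟨hy, h'⟩)
    refine (hasFDerivAt_const (0 : ℂ) y).congr_of_eventuallyEq (h1.mono fun w hw => ?_)
    simp only [hw, Pi.zero_apply, Complex.ofReal_zero, zero_mul]

theorem g_db (hF : ∀ i, C.Hol i (F i)) (j : Fin C.N) : ∃ M : E n → ℝ,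
    (∀ y ∈ C.bl j, 0 ≤ M y) ∧
    (∀ y ∈ C.bl j, ∀ a, ‖dbn (Λ.g F j ∘ (C.e j).symm) y a‖ ^ 2 ≤ M y * ‖a‖ ^ 2) ∧
    ∫⁻ y in C.bl j, ENNReal.ofReal (M y * Real.exp (-Λ.φ j y)) ∂lam n ≤
      ENNReal.ofReal (C.N * C.B ^ 2) * Λ.dj F j := by
  have hc : (0 : ℝ) ≤ C.N * C.B ^ 2 := by positivity
  refine ⟨fun y => C.N * C.B ^ 2 * ∑ i, (C.ov i j).indicator
    (fun w => ‖(Λ.u F i j ∘ (C.e j).symm) w‖ ^ 2) y, fun y _ => ?_, fun y hy a => ?_, ?_⟩
  · exact mul_nonneg hc (Finset.sum_nonneg fun i _ =>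
      indicator_nonneg (fun w _ => sq_nonneg _) y)
  · choose D hD hb using fun i => stepdx_term Λ hF i j hy
    have h1 : HasFDerivAt (Λ.g F j ∘ (C.e j).symm) (∑ i, D i) y :=
      HasFDerivAt.fun_sum (u := Finset.univ) fun i _ => hD i
    have h2 : dbn (Λ.g F j ∘ (C.e j).symm) y a =
        ∑ i, (D i a + Complex.I * D i (Complex.I • a)) / 2 := by
      rw [dbn, h1.fderiv, sum_apply, sum_apply,
        Finset.mul_sum, ← Finset.sum_add_distrib, Finset.sum_div]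
    rw [h2]
    refine (pow_le_pow_left₀ (norm_nonneg _) (norm_sum_le _ _) 2).trans
      (sq_sum_le_card_mul_sum_sq.trans ?_)
    rw [Finset.card_univ, Fintype.card_fin, mul_assoc, mul_assoc, ← mul_assoc (C.B ^ 2),
      Finset.mul_sum Finset.univ _ (C.B ^ 2), Finset.sum_mul]
    exact mul_le_mul_of_nonneg_left (Finset.sum_le_sum fun i _ => hb i a) (Nat.cast_nonneg _)
  · simp only [mul_assoc ((C.N : ℝ) * C.B ^ 2), ENNReal.ofReal_mul hc]
    rw [lintegral_const_mul' _ _ ENNReal.ofReal_ne_top]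
    gcongr
    exact nq_sum (fun i => ov_open C i j) (fun i => inter_subset_left) (Λ.sm j).continuousOn
      fun i => (u_hol Λ hF i j).continuousOn

end Vale.Agent.P272.K
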