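import Vale.Agent.P272.F.K.StepA
import Vale.Agent.P272.F.K.StepD
import Vale.Agent.P272.F.K.Horm

/-! P272 K/StepB (auxiliary names start with `stepbx_`; overview in `notes/P272K.md`).

One step of the contraction. `step0`: `horm_ball` for `g j ∘ symm`, `H = F ∘ e j`.
`step`: on `U i ∩ U j` the identity `u (F + H) i j = t i j (H i - g i) - (H j - g j)` (`g_cmp`), so by
`nq_tri`, `Λ.cv`, `nq_mono` each overlap term is at most `2 e i + 2 e j` with
`e j = nm j (g j - H j) ≤ 3 N B ^ 2 / κ * dj j`; the sum is `4 N ∑ e j ≤ 12 N ^ 2 B ^ 2 / κ * dd`.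
And `nm j (H j) ≤ 2 nm j (g j) + 2 e j` with `3 N B ^ 2 / κ ≤ 1` (as `1 ≤ N`). -/

open Metric Set Filter Topology MeasureTheory
open scoped ContDiff ENNReal ComplexConjugate

noncomputable section

namespace Vale.Agent.P272.K

variable {n : ℕ} {X : Type} [TopologicalSpace X]

variable {C : Cv n X} {κ : ℝ} (Λ : Lb C κ) {F : Fin C.N → X → ℂ}

theorem step0 (hκ : 0 < κ) (hF : ∀ i, C.Hol i (F i)) (hd : Λ.dd F ≠ ⊤) (j : Fin C.N) :
    ∃ H : X → ℂ, C.Hol j H ∧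
      Λ.nm j (Λ.g F j - H) ≤ ENNReal.ofReal (3 * C.N * C.B ^ 2 / κ) * Λ.dj F j := by
  have hj : Λ.dj F j ≠ ⊤ := ne_top_of_le_ne_top hd (dj_le Λ F j)
  obtain ⟨M, h0, h1, h2⟩ := g_db Λ hF j
  obtain ⟨G, hG, hG'⟩ := horm_ball hκ (Λ.sm j) (Λ.lev j) (g_smooth Λ hF j) h0 h1
    (ne_top_of_le_ne_top hj (g_nm Λ hF j))
    (ne_top_of_le_ne_top (ENNReal.mul_ne_top ENNReal.ofReal_ne_top hj) h2)
  have e : ∀ y ∈ C.bl j, C.e j ((C.e j).symm y) = y := fun y hy => (C.e j).right_inv (bl_sub C j hy)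
  refine ⟨G ∘ C.e j, hG.congr fun y hy => by simp only [Function.comp, e y hy], ?_⟩
  have h3 : Λ.nm j (Λ.g F j - G ∘ C.e j) =
      nq (Λ.φ j) (C.bl j) (Λ.g F j ∘ (C.e j).symm - G) :=
    nq_congr measurableSet_ball fun y hy => by simp only [Function.comp, Pi.sub_apply, e y hy]
  rw [h3]
  refine hG'.trans ((mul_le_mul_right h2 _).trans_eq ?_)
  rw [← mul_assoc, ← ENNReal.ofReal_mul (by positivity)]
  congr 2
  ring

theorem step (hκ : 0 < κ) (hN : 48 * (C.N : ℝ) ^ 2 * C.B ^ 2 ≤ κ) (hF : ∀ i, C.Hol i (F i))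
    (hd : Λ.dd F ≠ ⊤) : ∃ H : Fin C.N → X → ℂ, (∀ i, C.Hol i (H i)) ∧
      (∀ j, Λ.nm j (H j) ≤ 4 * Λ.dd F) ∧ 4 * Λ.dd (F + H) ≤ Λ.dd F := by
  choose H hH hE using step0 Λ hκ hF hd
  obtain ⟨q, hq⟩ : ∃ q, q = ENNReal.ofReal (3 * C.N * C.B ^ 2 / κ) := ⟨_, rfl⟩
  rw [← hq] at hE
  have hq1 : 16 * (C.N : ℝ≥0∞) * q ≤ 1 := by
    rw [hq, ← ENNReal.ofReal_natCast, ← ENNReal.ofReal_ofNat, ← ENNReal.ofReal_mul (by positivity),
      ← ENNReal.ofReal_mul (by positivity), ENNReal.ofReal_le_one, ← mul_div_assoc, div_le_one hκ]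
    nlinarith
  have hc : ∀ j, ContinuousOn ((Λ.g F j - H j) ∘ (C.e j).symm) (C.bl j) := fun j =>
    (g_smooth Λ hF j).continuousOn.sub (hH j).continuousOn
  refine ⟨H, hH, fun j => ?_, ?_⟩
  · have h1 : Λ.nm j (H j) ≤ 2 * Λ.nm j (Λ.g F j - H j) + 2 * Λ.nm j (Λ.g F j) :=
      nq_tri measurableSet_ball (Λ.sm j).continuousOn (hc j) fun y _ => by
        simp only [Function.comp, Pi.sub_apply]
        rw [add_comm]
        exact (congrArg norm (sub_sub_cancel _ _).symm).trans_le (norm_sub_le _ _)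
    have h2 : q ≤ 1 := by
      refine le_trans (le_mul_of_one_le_left' ?_) hq1
      have : (1 : ℝ≥0∞) ≤ C.N := by exact_mod_cast j.pos
      exact one_le_mul_of_one_le_of_one_le (by norm_num) this
    have h3 : Λ.nm j (Λ.g F j - H j) ≤ Λ.dd F :=
      (hE j).trans ((mul_le_of_le_one_left' h2).trans (dj_le Λ F j))
    have h4 := (g_nm Λ hF j).trans (dj_le Λ F j)
    refine h1.trans ((add_le_add (mul_le_mul_right h3 2) (mul_le_mul_right h4 2)).trans_eq ?_)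
    ring
  have h1 : ∀ i j, nq (Λ.φ j) (C.ov i j) (Λ.u (F + H) i j ∘ (C.e j).symm) ≤
      2 * Λ.nm j (Λ.g F j - H j) + 2 * Λ.nm i (Λ.g F i - H i) := fun i j => by
    have hs : ∀ i j, C.ov i j ⊆ C.bl j := fun i j => inter_subset_left
    refine (nq_tri (f := (Λ.g F j - H j) ∘ (C.e j).symm)
      (g := (fun x => Λ.t i j x * (Λ.g F i - H i) x) ∘ (C.e j).symm) (ov_open C i j).measurableSet
      ((Λ.sm j).continuousOn.mono (hs i j)) ((hc j).mono (hs i j)) fun y hy => ?_).trans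
      (add_le_add (mul_le_mul_right (nq_mono (hs i j)) 2)
        (mul_le_mul_right ((Λ.cv i j _).trans (nq_mono (hs j i))) 2))
    have h2 := g_cmp Λ F hy.2 (symm_mem_U hy.1)
    refine (congrArg norm ?_).trans_le (norm_sub_le _ _)
    simp only [Function.comp, Lb.u, Pi.add_apply, Pi.sub_apply]
    linear_combination -h2
  have h2 : ∑ j, Λ.nm j (Λ.g F j - H j) ≤ q * Λ.dd F := by
    rw [Lb.dd, Finset.mul_sum]
    exact Finset.sum_le_sum fun j _ => hE j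
  have h3 : Λ.dd (F + H) ≤ 4 * C.N * ∑ j, Λ.nm j (Λ.g F j - H j) := by
    refine (Finset.sum_le_sum fun j _ => Finset.sum_le_sum fun i _ => h1 i j).trans_eq ?_
    simp only [Finset.sum_add_distrib, Finset.sum_const, Finset.card_univ, Fintype.card_fin,
      nsmul_eq_mul, ← Finset.mul_sum]
    ring
  calc 4 * Λ.dd (F + H) ≤ 4 * (4 * C.N * (q * Λ.dd F)) :=
        mul_le_mul_right (h3.trans (mul_le_mul_right h2 _)) _
    _ = (16 * C.N * q) * Λ.dd F := by ring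
    _ ≤ Λ.dd F := mul_le_of_le_one_left' hq1

end Vale.Agent.P272.K
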