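import Vale.Agent.P272.F.K.CV
import Vale.Agent.P272.F.K.Jac
import Vale.Agent.P272.F.K.Ov

/-! P272 K/Wt0 (auxiliary names start with `wt0x_`; overview in `notes/P272K.md`).

Invariance of the norm. `T = e i ∘ symm j` maps `ov i j` bijectively onto `ov j i`; `cv_flat`.
At `y = e j x` the Jacobian determinant is `d = dt A (k i) (k j) x ≠ 0`, and `v.cmp (k i) (k j)` gives
`exp (l (k j) y) = exp (l (k i) (T y)) ‖d‖ ^ 2`, so that
`‖tw‖ ^ 2 exp (-ww j y) = ‖d‖ ^ 2 exp (-ww i (T y))` (`wt_pt`; write `m = m' + 1`, or take logarithms). -/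

open Metric Set Filter Topology MeasureTheory
open scoped ContDiff ENNReal ComplexConjugate

noncomputable section

namespace Vale.Agent.P272.K

variable {n : ℕ} {X : Type} [TopologicalSpace X]

variable {A : Atl n X} {C : Cv n X} {k : Fin C.N → Fin A.N} {Q : Fin C.N → E n → ℂ} {m : ℕ}

theorem wt_pt (v : A.LV) (hk : C.On A k) {i j : Fin C.N} {x : X} (hi : x ∈ C.U i)
    (hj : x ∈ C.U j) :
    ‖tw A k Q m i j x‖ ^ 2 * Real.exp (-ww v k Q m j (C.e j x)) =
      ‖dt A (k i) (k j) x‖ ^ 2 * Real.exp (-ww v k Q m i (C.e i x)) := by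
  have hi' : x ∈ (A.e (k i)).source := by
    rw [← hk i]
    exact hi.1
  have hj' : x ∈ (A.e (k j)).source := by
    rw [← hk j]
    exact hj.1
  have hd : 0 < ‖dt A (k i) (k j) x‖ ^ 2 := pow_pos (norm_pos_iff.2 (dt_ne hi' hj')) 2
  have hc := v.cmp (k i) (k j) x hi' hj'
  rw [← hk i, ← hk j] at hc
  change _ = _ + Real.log (‖dt A (k i) (k j) x‖ ^ 2) at hc
  unfold tw ww
  rw [hc, norm_mul, norm_pow, Complex.norm_exp, mul_pow, ← pow_mul, mul_comm m 2, pow_mul]
  generalize ‖dt A (k i) (k j) x‖ ^ 2 = D at hd ⊢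
  obtain ⟨t, rfl⟩ : ∃ t, D = Real.exp t := ⟨Real.log D, (Real.exp_log hd).symm⟩
  rw [Real.log_exp, ← Real.exp_nat_mul, ← Real.exp_nat_mul, ← Real.exp_add, ← Real.exp_add,
    ← Real.exp_add]
  refine congrArg Real.exp ?_
  simp only [Complex.sub_re, Complex.mul_re, Complex.natCast_re, Complex.natCast_im, zero_mul,
    sub_zero]
  push_cast
  ring

theorem wt_cv (v : A.LV) (hk : C.On A k) (i j : Fin C.N) (f : X → ℂ) :
    nq (ww v k Q m j) (C.ov i j) ((fun x => tw A k Q m i j x * f x) ∘ (C.e j).symm) ≤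
      nq (ww v k Q m i) (C.ov j i) (f ∘ (C.e i).symm) := by
  have hS := (ov_open C i j).measurableSet
  have hU : ∀ y ∈ C.ov i j, (C.e j).symm y ∈ C.U j ∧ C.e j ((C.e j).symm y) = y := fun y hy =>
    ⟨symm_mem_U hy.1, (C.e j).right_inv (bl_sub C j hy.1)⟩
  have hT : ∀ y ∈ C.ov i j, DifferentiableAt ℂ (C.e i ∘ (C.e j).symm) y := fun y hy => by
    have h := (C.an i j _ (show (C.e j).symm y ∈ C.U i from hy.2).1 (hU y hy).1.1).differentiableAt
    rwa [(hU y hy).2] at h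
  have hI : InjOn (C.e i ∘ (C.e j).symm) (C.ov i j) := fun y hy z hz h => by
    have h2 := (C.e i).injOn (show (C.e j).symm y ∈ C.U i from hy.2).1
      (show (C.e j).symm z ∈ C.U i from hz.2).1 h
    rw [← (hU y hy).2, h2, (hU z hz).2]
  have hsub : (C.e i ∘ (C.e j).symm) '' C.ov i j ⊆ C.ov j i := by
    rintro _ ⟨y, hy, rfl⟩
    exact mem_ov (hU y hy).1 hy.2
  unfold nq
  refine le_trans (le_of_eq ?_) (lintegral_mono_set hsub)
  rw [cv_flat hS hT hI]
  refine setLIntegral_congr_fun hS fun y hy => ?_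
  have hyi : (C.e j).symm y ∈ C.U i := hy.2
  have h := wt_pt (Q := Q) (m := m) v hk hyi (hU y hy).1
  have hd : (fderiv ℂ (C.e i ∘ (C.e j).symm) y).det = dt A (k i) (k j) ((C.e j).symm y) := by
    unfold dt Atl.tr
    rw [← hk i, ← hk j, (hU y hy).2]
  rw [(hU y hy).2] at h
  simp only [Function.comp_apply]
  rw [← ENNReal.ofReal_mul (by positivity), hd, (C.e i).left_inv hyi.1, norm_mul, mul_pow]
  refine congrArg ENNReal.ofReal ?_
  linear_combination ‖f ((C.e j).symm y)‖ ^ 2 * h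

end Vale.Agent.P272.K
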